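import Vale.Agent.P049.TS.S1.RateS
import Vale.Agent.P049.TS.Asm.EnvC2

/-!
The rate lemma of the potential `A6c` of `S₁ = Σ Z_cc²` in the phase IIIa (uniform weights).
-/

set_option linter.unusedSectionVars false
set_option exponentiation.threshold 3000

namespace Vale.Agent.P049.TS.S1

open Matrix Finset Vale.Agent.P049.TS.Asm

variable {ι : Type*} [Fintype ι] [DecidableEq ι]
variable {F : Finset ι} {Zp Zm Z : Matrix ι ι ℝ} {forb : ι → ι → Prop} {ε : ℝ} {n d k : ℕ}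

/-! ### General facts -/

/-- `Q₄ ≤ N/2 + YS`, form with `Σ w_a² ≤ w²` -/
theorem Q4_halfW {m s w T : ℝ} (h : Sg F Z m ε) (he : ε = 1 ∨ ε = -1) (hm : 0 < m)
    (hm1 : m < 1) (hm2 : m ^ 2 ≤ 1 / 2) (hs : 1 ≤ s) (hw : 0 ≤ w)
    (hS : ∑ a ∈ F, Z a a ^ 2 ≤ s ^ 2) (hW : ∑ a ∈ F, (Z ^ 2) a a ^ 2 ≤ w ^ 2)
    (hw4 : w ^ 2 ≤ F.card * s ^ 2) (hT2 : (Z ^ 2).trace ≤ F.card) (hT : 0 ≤ T) :
    Q4 F Z ≤ 1 / 2 * F.card + YS s w T 0 := by
  have hN : (1 : ℝ) ≤ F.card := by exact_mod_cast h.card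
  have hN0 : (0 : ℝ) < F.card := by linarith
  have h1 := h.Q4_le_W he hm hm1 (by linarith) hw hS hW
  have hsw : 0 ≤ s * w := mul_nonneg (by linarith) hw
  have a1 : m ^ 2 * (Z ^ 2).trace ≤ 1 / 2 * F.card := by
    calc m ^ 2 * (Z ^ 2).trace ≤ m ^ 2 * F.card := mul_le_mul_of_nonneg_left hT2 (sq_nonneg _)
      _ ≤ 1 / 2 * F.card := mul_le_mul_of_nonneg_right hm2 (by positivity)
  have a3 : 2 * m * (s * w) ≤ 2 * (s * w) := by nlinarith
  have a4 : 2 / (F.card : ℝ) * (3 * (Z ^ 2).trace + 2 * (s * w) + w ^ 2) ≤ 30 * s ^ 2 := by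
    have b1 : 2 * (s * w) ≤ s ^ 2 + w ^ 2 := by nlinarith [sq_nonneg (s - w)]
    have c0 : 1 ≤ s ^ 2 := one_le_pow₀ hs
    have c1 : 0 ≤ ((F.card : ℝ) - 1) * s ^ 2 := mul_nonneg (by linarith) (sq_nonneg s)
    have c2 : 0 ≤ (F.card : ℝ) * (s ^ 2 - 1) := mul_nonneg hN0.le (by linarith)
    rw [div_mul_eq_mul_div, div_le_iff₀ hN0]
    linarith
  unfold YS
  linarith [show 0 ≤ s ^ 2 from sq_nonneg s]

/-- `|Σ Z_cc w_c| ≤ s w` -/
theorem abs_sum_zwW {s w : ℝ} (hs : 0 ≤ s) (hw : 0 ≤ w) (hZ : Z.IsSymm)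
    (hS : ∑ a ∈ F, Z a a ^ 2 ≤ s ^ 2) (hW : ∑ a ∈ F, (Z ^ 2) a a ^ 2 ≤ w ^ 2) :
    |∑ c ∈ F, Z c c * (Z ^ 2) c c| ≤ s * w := by
  refine (Finset.abs_sum_le_sum_abs _ _).trans ?_
  refine le_trans (le_of_eq ?_) (Q.sum_abs_diag_mul_le hS hs hW hw)
  refine Finset.sum_congr rfl fun a _ => ?_
  have h : 0 ≤ (Z ^ 2) a a := by
    rw [sq, Matrix.mul_apply]
    exact Finset.sum_nonneg fun c _ => by rw [hZ.apply a c]; exact mul_self_nonneg _
  rw [abs_mul, abs_of_nonneg h]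

/-! ### Parameters of the phase IIIa -/

/-- `w² = σ^(-670) N² ≥ thC` -/
noncomputable def wA (n d k : ℕ) : ℝ := mo (LL n) (XX n d k) (-335) 1
/-- `r² = w` -/
noncomputable def rA (n d k : ℕ) : ℝ := mo (LL n) (XX n d k) (-(335 / 2)) (1 / 2)

theorem wA_nonneg (n d k : ℕ) : 0 ≤ wA n d k := mo_nonneg _ _ _ _
theorem rA_nonneg (n d k : ℕ) : 0 ≤ rA n d k := mo_nonneg _ _ _ _

theorem rA_sq (n d k : ℕ) : rA n d k ^ 2 = wA n d k := by
  unfold rA wA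
  rw [mo_pow]; norm_num

theorem wA_mul (h : 0 < Nk n d k) (h1 : 1 ≤ sR n) : wA n d k * (sR n : ℝ) ^ 335 = Nk n d k := by
  unfold wA
  rw [Nk_eq_mo h (LL n), sR_pow h1 (XX n d k), mo_mul]
  norm_num

theorem wA_sq_mul (h : 0 < Nk n d k) (h1 : 1 ≤ sR n) :
    wA n d k ^ 2 * (sR n : ℝ) ^ 670 = Nk n d k ^ 2 := by
  rw [← wA_mul h h1, mul_pow, ← pow_mul]

theorem thC_le_wA (hσ : 2000 ≤ sR n) (hN : 0 < Nk n d k) : thC n d k ≤ wA n d k ^ 2 := by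
  have hs0 := sR_pos hσ
  have hC := CC_pos hσ
  unfold thC
  rw [div_le_iff₀ (by positivity)]
  have e1 : (sR n : ℝ) ^ 700 * Nk n d k ^ 2 = wA n d k ^ 2 * CC n ^ 2 := by
    rw [← wA_sq_mul hN (by omega)]
    unfold CC
    ring
  rw [e1]
  exact mul_le_mul_of_nonneg_left (pow_le_pow_left₀ hC.le (by linarith) 2) (sq_nonneg _)

theorem wA_ge (hσ : 2000 ≤ sR n) (hk : k < k3 n d) : (sR n : ℝ) ^ 345 ≤ wA n d k := by
  have hs0 := sR_pos hσ
  have hN : 0 < Nk n d k := lt_of_le_of_lt (by positivity) (Nk_gt3 hk)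
  have h1 := wA_mul hN (by omega : 1 ≤ sR n)
  have h2 := (Nk_gt3 hk).le
  rw [← h1, show (680 : ℕ) = 345 + 335 from rfl, pow_add] at h2
  exact le_of_mul_le_mul_right h2 (by positivity)

theorem sC_four (hσ : 2000 ≤ sR n) : sC n d k ^ 4 = (sR n : ℝ) ^ 208 := by
  rw [show (4 : ℕ) = 2 * 2 from rfl, pow_mul, sC_sq (by omega), ← pow_mul]

theorem sC_four_le (hσ : 2000 ≤ sR n) (hk : k < k3 n d) : sC n d k ^ 4 ≤ wA n d k := by
  rw [sC_four hσ]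
  exact (pow_le_pow_right₀ (sR_one hσ) (by norm_num)).trans (wA_ge hσ hk)

theorem one_le_wA (hσ : 2000 ≤ sR n) (hk : k < k3 n d) : 1 ≤ wA n d k :=
  (one_le_pow₀ (sR_one hσ)).trans (wA_ge hσ hk)

theorem one_le_sC (hσ : 2000 ≤ sR n) : 1 ≤ sC n d k := by
  refine abs_le_of_sq_le_sq' ?_ (sC_nonneg n d k) |>.2
  rw [sC_sq (by omega), one_pow]
  exact one_le_pow₀ (sR_one hσ)

/-- `w² ≤ N s²` -/
theorem wA_sq_le (hσ : 2000 ≤ sR n) (hk1 : k2 n d ≤ k) (hk : k < k3 n d) :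
    wA n d k ^ 2 ≤ Nk n d k * sC n d k ^ 2 := by
  have hs0 := sR_pos hσ
  have hs1 := sR_one hσ
  have hN : 0 < Nk n d k := lt_of_le_of_lt (by positivity) (Nk_gt3 hk)
  have h1 := wA_sq_mul hN (by omega : 1 ≤ sR n)
  rw [sC_sq (by omega)]
  have h2 : Nk n d k ≤ (sR n : ℝ) ^ 104 * (sR n : ℝ) ^ 670 := by
    rw [← pow_add]
    exact (Nk_le2 hk1).trans (pow_le_pow_right₀ hs1 (by norm_num))
  have h3 : wA n d k ^ 2 * (sR n : ℝ) ^ 670 ≤
      Nk n d k * (sR n : ℝ) ^ 104 * (sR n : ℝ) ^ 670 := by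
    rw [h1, sq, mul_assoc]
    exact mul_le_mul_of_nonneg_left h2 hN.le
  exact le_of_mul_le_mul_right h3 (by positivity)

theorem bdsC (E : EnvC n d k F Zp Zm forb) (hσ : 2000 ≤ sR n) (o : OneC n d k ε F Z) :
    Bds F Z (tC n d k) (sC n d k) (wA n d k) (n2 n d k) (bC n d k) where
  t0 := tC_nonneg _ _ _
  σ0 := sC_nonneg _ _ _
  v0 := wA_nonneg _ _ _
  ν0 := n2_nonneg _ _ _
  b0 := bC_nonneg _ _ _
  T := o.T2
  S := by
    refine le_trans (le_of_eq ?_) o.S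
    exact (Finset.sum_subset (Finset.subset_univ F) fun x _ hx => by
      rw [o.supp x hx x]; norm_num).symm
  V := by
    refine le_trans (le_of_eq ?_) (o.V2r.trans (thC_le_wA hσ (E.Nk_pos hσ)))
    exact (Finset.sum_subset (Finset.subset_univ F) fun x _ hx => by
      rw [sq_diag_supp o.supp x hx]; norm_num).symm
  N := by rw [E.card, n2_sq (E.Nk_pos hσ)]
  op := o.opB

/-- the number of excluded partners -/
theorem degC_le (hσ : 2000 ≤ sR n) (hk : k < k3 n d) :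
    1 + (d : ℝ) * (d + 1) + 128 * wA n d k + 128 * sC n d k ^ 4 ≤
      ((d + 20) * rA n d k) ^ 2 := by
  have h1 := sC_four_le (d := d) hσ hk
  have h2 := one_le_wA (d := d) hσ hk
  rw [mul_pow, rA_sq]
  have hd : (0 : ℝ) ≤ d := Nat.cast_nonneg d
  have h3 : (1 + (d : ℝ) * (d + 1)) ≤ (1 + (d : ℝ) * (d + 1)) * wA n d k := by
    nlinarith [mul_nonneg hd hd]
  nlinarith [mul_nonneg hd (wA_nonneg n d k), wA_nonneg n d k]

theorem card_geC (E : EnvC n d k F Zp Zm forb) (hσ : 2000 ≤ sR n) : 16 ≤ F.card := by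
  have h1 := Nk_gt3 E.k_lt
  rw [← E.card] at h1
  have h2 : (16 : ℝ) ≤ (sR n : ℝ) ^ 680 := by
    have hs := sR_ge hσ
    calc (16 : ℝ) ≤ (sR n : ℝ) ^ 1 := by rw [pow_one]; linarith
      _ ≤ _ := pow_le_pow_right₀ (sR_one hσ) (by norm_num)
  have h3 : (16 : ℝ) ≤ F.card := h2.trans h1.le
  exact_mod_cast h3

theorem hypC (E : EnvC n d k F Zp Zm forb) (hσ : 2000 ≤ sR n) (hs : Sgn Zp Zm ε Z) :
    Hyp F Z (adm F forb Zp Zm) (fun _ _ => 0) (tC n d k) (sC n d k) (wA n d k)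
      (rA n d k) (2 * sC n d k) (eC n d k) ((d + 20) * rA n d k) 0 (n2 n d k) := by
  have o := E.oneC hs
  have hN := E.Nk_pos hσ
  have hs1 := one_le_sC (n := n) (d := d) (k := k) hσ
  have hd : (0 : ℝ) ≤ d := Nat.cast_nonneg d
  have hr := rA_nonneg n d k
  have heps : ε = 1 ∨ ε = -1 := Rate.Sgn.eps hs
  obtain ⟨m1, m2, m3, m4⟩ := mu_facts' E.d3
  have bp := bdsC E hσ E.p
  have bm := bdsC E hσ E.m
  have fo := forbOK_of E.tp
  have hdeg := degC_le (d := d) hσ E.k_lt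
  have hW : ∑ a ∈ F, (Z ^ 2) a a ^ 2 ≤ wA n d k ^ 2 := o.V2r.trans (thC_le_wA hσ hN)
  exact
    { base := ⟨o.symm, fun i j hi => o.supp i hi j, o.row⟩
      sub := adm_subset _ _ _ _
      ok := adm_ok Zp Zm hs
      t0 := tC_nonneg _ _ _
      s0 := sC_nonneg _ _ _
      w0 := wA_nonneg _ _ _
      r0 := hr
      z0 := by linarith
      e0 := eC_nonneg _ _ _
      g0 := by positivity
      H0 := le_rfl
      n0 := n2_nonneg _ _ _
      T := o.T2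
      S := o.S
      W := hW
      R := fun a ha => by
        rw [rA_sq]
        exact Q.sq_diag_le_of_W hW (wA_nonneg n d k) ha
      Zb := fun a b => by
        have := abs_entry_le o.sg heps m1 m3 (card_geC E hσ) (sC_nonneg _ _ _) o.S a b
        linarith
      N := by rw [E.card, n2_sq hN]
      card := card_complC_le hσ E
      rows := fun a ha => (rows_adm_le fo bp bm E.p.symm E.m.symm ha).trans hdeg
      cols := fun a ha => (cols_adm_le fo bp bm E.p.symm E.m.symm ha).trans hdeg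
      hh := fun _ _ => by norm_num
      hrow := fun _ _ => by simp
      hcol := fun _ _ => by simp }

/-- `|T₁| ≤ (5d²+1) σ^384` -/
theorem abs_T1C (hσ : 2000 ≤ sR n) (hN : 0 < Nk n d k) (hε : ε = 1 ∨ ε = -1)
    (h : OneC n d k ε F Z) : |Z.trace| ≤ (5 * (d : ℝ) ^ 2 + 1) * (sR n : ℝ) ^ 384 := by
  have hrho := rhoC_pos hσ hN
  have h1 : ε * Z.trace ≤ 0 := by linarith [h.T1_le]
  have h3 := h.T1_ge
  have e : |Z.trace| = |ε * Z.trace| := by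
    rw [abs_mul]
    rcases hε with rfl | rfl <;> norm_num
  rw [e, abs_of_nonpos h1]
  linarith

/-- the parameters -/
noncomputable def ρA (n d k : ℕ) : ℕ → ℝ :=
  env 0 (tC n d k) (sC n d k) (wA n d k) (wA n d k) (rA n d k) (2 * sC n d k) (eC n d k)
    ((d + 20) * rA n d k) 0 (n2 n d k) ((5 * (d : ℝ) ^ 2 + 1) * (sR n : ℝ) ^ 384) 0 0 0 0

/-- the constants -/
noncomputable def κA (d : ℕ) : ℕ → ℝ :=
  env 0 2 1 1 1 1 2 ((d : ℝ) + 25) ((d : ℝ) + 20) 0 1 (5 * (d : ℝ) ^ 2 + 1) 0 0 0 0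

/-- the drift of `S₁` in the phase IIIa -/
theorem S1_bdC (E : EnvC n d k F Zp Zm forb) (hσ : 2000 ≤ sR n) (hs : Sgn Zp Zm ε Z) :
    ∑ p ∈ adm F forb Zp Zm, (Sd ((F.erase p.1).erase p.2) (upd Z p.1 p.2) - Sd F Z) ≤
      gS.ev (ρA n d k) := by
  have o := E.oneC hs
  have hN := E.Nk_pos hσ
  have hs1 := one_le_sC (n := n) (d := d) (k := k) hσ
  have heps : ε = 1 ∨ ε = -1 := Rate.Sgn.eps hs
  obtain ⟨m1, m2, m3, m4⟩ := mu_facts' E.d3
  have hT := abs_T1C hσ hN heps o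
  have hT0 : 0 ≤ (5 * (d : ℝ) ^ 2 + 1) * (sR n : ℝ) ^ 384 := (abs_nonneg _).trans hT
  have hν : n2 n d k ^ 2 = (F.card : ℝ) := by rw [n2_sq hN, E.card]
  have hT2 : (Z ^ 2).trace ≤ F.card := by rw [E.card]; exact o.T2_le
  have hw4 : wA n d k ^ 2 ≤ F.card * sC n d k ^ 2 := by
    rw [E.card]; exact wA_sq_le hσ E.k_ge E.k_lt
  have hW : ∑ a ∈ F, (Z ^ 2) a a ^ 2 ≤ wA n d k ^ 2 := o.V2r.trans (thC_le_wA hσ hN)
  have hw0 := wA_nonneg n d k
  have hs0 := sC_nonneg n d k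
  have hY0 : 0 ≤ YS (sC n d k) (wA n d k) ((5 * (d : ℝ) ^ 2 + 1) * (sR n : ℝ) ^ 384) 0 := by
    unfold YS
    positivity
  unfold ρA
  rw [← gS_ev]
  have key := S1_le (hypC E hσ hs) hY0
    (by rw [hν]; exact Q4_halfW o.sg heps m1 m2 m4 hs1 hw0 o.S hW hw4 hT2 hT0) hT
    (X := (5 * (d : ℝ) ^ 2 + 1) * (sR n : ℝ) ^ 384 + sC n d k * wA n d k)
    ((abs_sum_zwW hs0 hw0 o.symm o.S hW).trans (by linarith))
    (τ := tS 0 (sC n d k) (wA n d k) (wA n d k) 0 0 0) (by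
      unfold tS
      simp)
  refine le_trans (le_of_eq ?_) key
  exact Finset.sum_congr rfl fun p _ => by ring

/-! ### Exponents -/

theorem κA_nonneg (d : ℕ) : ∀ i, 0 ≤ κA d i :=
  env_nonneg le_rfl (by norm_num) (by norm_num) (by norm_num) (by norm_num) (by norm_num)
    (by norm_num) (by positivity) (by positivity) le_rfl (by norm_num) (by positivity)
    le_rfl le_rfl le_rfl le_rfl

theorem ρA_nonneg (n d k : ℕ) : ∀ i, 0 ≤ ρA n d k i := by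
  have hs := sC_nonneg n d k
  have hr := rA_nonneg n d k
  exact env_nonneg le_rfl (tC_nonneg _ _ _) hs (wA_nonneg _ _ _) (wA_nonneg _ _ _) hr
    (by linarith) (eC_nonneg _ _ _) (by positivity) le_rfl (n2_nonneg _ _ _) (by positivity)
    le_rfl le_rfl le_rfl le_rfl

theorem wA_Em : wA n d k = Asm.Em (LL n) (XX n d k) 680 699 1380 1456 :=
  mo_eq_Em (by norm_num) (by norm_num) (by norm_num)

theorem rA_Em : rA n d k = Asm.Em (LL n) (XX n d k) 680 699 690 728 :=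
  mo_eq_Em (by norm_num) (by norm_num) (by norm_num)

theorem ρA_le (hσ : 2000 ≤ sR n) :
    ∀ i, ρA n d k i ≤ κA d i * Asm.Em (LL n) (XX n d k) 680 699 (zC1 i) (zC2 i)
  | 0 => by
      show (0 : ℝ) ≤ 0 * _
      rw [zero_mul]
  | 1 => tC_Em
  | 2 => by
      show sC n d k ≤ 1 * _
      rw [one_mul, sC_Em]
      exact le_rfl
  | 3 => by
      show wA n d k ≤ 1 * _
      rw [one_mul, wA_Em]
      exact le_rfl
  | 4 => by
      show wA n d k ≤ 1 * _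
      rw [one_mul, wA_Em]
      exact le_rfl
  | 5 => by
      show rA n d k ≤ 1 * _
      rw [one_mul, rA_Em]
      exact le_rfl
  | 6 => by
      show 2 * sC n d k ≤ 2 * _
      rw [sC_Em]
      exact le_rfl
  | 7 => by
      show eC n d k ≤ ((d : ℝ) + 25) * _
      rw [eC_Em]
      exact le_rfl
  | 8 => by
      show (d + 20) * rA n d k ≤ ((d : ℝ) + 20) * _
      rw [rA_Em]
      exact le_rfl
  | 9 => by
      show (0 : ℝ) ≤ 0 * _
      rw [zero_mul]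
  | 10 => by
      show n2 n d k ≤ 1 * _
      rw [one_mul]
      exact (moN_C (n := n) (d := d) (k := k)).le
  | 11 => by
      show (5 * (d : ℝ) ^ 2 + 1) * (sR n : ℝ) ^ 384 ≤ (5 * (d : ℝ) ^ 2 + 1) * _
      rw [sR_pow_Em hσ (X := XX n d k) (show (680 : ℝ) < 699 by norm_num) 384]
      exact le_rfl
  | 12 => by
      show (0 : ℝ) ≤ 0 * _
      rw [zero_mul]
  | 13 => by
      show (0 : ℝ) ≤ 0 * _
      rw [zero_mul]
  | 14 => by
      show (0 : ℝ) ≤ 0 * _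
      rw [zero_mul]
  | 15 => by
      show (0 : ℝ) ≤ 0 * _
      rw [zero_mul]
  | (_ + 16) => by
      show (0 : ℝ) ≤ 0 * _
      rw [zero_mul]

/-- **the rate lemma of `A6c`** (`S₁` in the phase IIIa) -/
theorem rate_A6 (d : ℕ) : ∃ C : ℝ, ∃ s0 : ℕ, ∀ (ι : Type*) [Fintype ι]
    [DecidableEq ι] (n k : ℕ) (F : Finset ι) (Zp Zm : Matrix ι ι ℝ) (forb : ι → ι → Prop),
    s0 ≤ sR n → EnvC n d k F Zp Zm forb → ∀ (ε : ℝ) (Z : Matrix ι ι ℝ), Sgn Zp Zm ε Z →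
      ∑ p ∈ adm F forb Zp Zm, (A6c n ((F.erase p.1).erase p.2) (upd Z p.1 p.2) - A6c n F Z) ≤
        C * rT n d k := by
  refine ⟨gS.cs (κA d), 2000, ?_⟩
  intro ι _ _ n k F Zp Zm forb hσ E ε Z hs
  have hσ0 : (0 : ℝ) < sR n := sR_pos hσ
  have hc : (0 : ℝ) < (sR n : ℝ) ^ 104 := by positivity
  have e1 : ∀ p : ι × ι, A6c n ((F.erase p.1).erase p.2) (upd Z p.1 p.2) - A6c n F Z =
      (Sd ((F.erase p.1).erase p.2) (upd Z p.1 p.2) - Sd F Z) / (sR n : ℝ) ^ 104 := by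
    intro p; unfold A6c; ring
  simp only [e1]
  rw [← Finset.sum_div, div_le_iff₀ hc]
  refine (S1_bdC E hσ hs).trans ?_
  have R := rg3 hσ E.k_ge E.k_lt
  have h3 := Ex.bound gS R zC1 zC2 gS_C1 gS_C2 (ρA_nonneg n d k) (κA_nonneg d) (ρA_le hσ)
  refine h3.trans (le_of_eq ?_)
  rw [rT_Em, sR_pow_Em hσ (X := XX n d k) (show (680 : ℝ) < 699 by norm_num) 104, mul_assoc,
    Em_mul]
  norm_num

end Vale.Agent.P049.TS.S1
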