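import Vale.Agent.P049.TS.S1.Abs
import Vale.Agent.P049.TS.Shell.Sign2
import Vale.Agent.P049.TS.Final.AdmOK
import Vale.Agent.P049.TS.Tilt.RowS
import Vale.Agent.P049.TS.Asm.ExpoEnv
import Vale.Agent.P049.TS.Asm.EnvOf
import Vale.Agent.P049.TS.Rate.RT1

/-!
The rate lemma of the potential `fS` of `S₁ = Σ Z_cc²` in the phases I and II.
-/

set_option linter.unusedSectionVars false
set_option exponentiation.threshold 3000

namespace Vale.Agent.P049.TS.S1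

open Matrix Finset Vale.Agent.P049.TS.Asm

variable {ι : Type*} [Fintype ι] [DecidableEq ι]
variable {F : Finset ι} {Zp Zm Z : Matrix ι ι ℝ} {forb : ι → ι → Prop} {ε : ℝ} {n d k : ℕ}

/-! ### General facts -/

/-- a sum over the support of the weights as a trace-like sum -/
theorem sum_h_KK (A : Finset (ι × ι)) (h : Matrix ι ι ℝ)
    (h0 : ∀ p, p ∉ A → h p.1 p.2 = 0) (hZ : Z.IsSymm) :
    ∑ p ∈ A, h p.1 p.2 * KK Z p.1 p.2 = ∑ c, Z c c * (Z * h * Z) c c := by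
  have e1 : ∑ p ∈ A, h p.1 p.2 * KK Z p.1 p.2 = ∑ p : ι × ι, h p.1 p.2 * KK Z p.1 p.2 :=
    Finset.sum_subset (Finset.subset_univ A) fun p _ hp => by rw [h0 p hp, zero_mul]
  rw [e1, Fintype.sum_prod_type]
  have e2 : ∀ c, (Z * h * Z) c c = ∑ a, ∑ b, h a b * (Z a c * Z b c) := by
    intro c
    rw [Matrix.mul_apply]
    simp only [Matrix.mul_apply, Finset.sum_mul]
    rw [Finset.sum_comm]
    refine Finset.sum_congr rfl fun a _ => Finset.sum_congr rfl fun b _ => ?_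
    rw [hZ.apply a c]; ring
  simp only [e2, Finset.mul_sum, KK]
  rw [Finset.sum_comm' (s := (Finset.univ : Finset ι)) (t := fun _ => Finset.univ)
    (t' := (Finset.univ : Finset ι)) (s' := fun _ => Finset.univ) (by simp)]
  have e3 : ∀ b, ∑ a, ∑ c, h a b * (Z c c * (Z a c * Z b c)) =
      ∑ c, ∑ a, h a b * (Z c c * (Z a c * Z b c)) := fun b => Finset.sum_comm
  simp only [e3]
  rw [Finset.sum_comm]
  refine Finset.sum_congr rfl fun c _ => ?_
  rw [Finset.sum_comm]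
  exact Finset.sum_congr rfl fun a _ => Finset.sum_congr rfl fun b _ => by ring

/-- the entry bound `|Z_ab| ≤ 1 + s` -/
theorem abs_entry_le {m s : ℝ} (h : Sg F Z m ε) (he : ε = 1 ∨ ε = -1) (hm : 0 < m)
    (hm1 : m ≤ 3 / 4) (hN : 16 ≤ F.card) (hs : 0 ≤ s) (hS : ∑ a ∈ F, Z a a ^ 2 ≤ s ^ 2)
    (a b : ι) : |Z a b| ≤ 1 + s := by
  have h1 := h.hent he hm hm1 hN a b
  have hd : ∀ c, |Z c c| ≤ s := by
    intro c
    by_cases hc : c ∈ F
    · exact Q.abs_diag_le_of hS hs hc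
    · rw [h.supp c c (Or.inl hc), abs_zero]; exact hs
  have h2 : Z a b ^ 2 ≤ (1 + s) ^ 2 := by
    refine h1.trans ?_
    rw [sq]
    exact mul_le_mul (by linarith [hd a]) (by linarith [hd b]) (by positivity) (by positivity)
  exact abs_le_of_sq_le_sq h2 (by positivity)

/-- `Q₄ ≤ N/2 + YS` -/
theorem Q4_half {m s v w T D : ℝ} (h : Sg F Z m ε) (he : ε = 1 ∨ ε = -1) (hm : 0 < m)
    (hm1 : m < 1) (hm2 : m ^ 2 ≤ 1 / 2) (hs : 1 ≤ s) (hv : 0 ≤ v) (hw : 0 ≤ w)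
    (hS : ∑ a ∈ F, Z a a ^ 2 ≤ s ^ 2) (hV : ∑ a ∈ F, ((Z ^ 2) a a - 1) ^ 2 ≤ v ^ 2)
    (hW : ∑ a ∈ F, (Z ^ 2) a a ^ 2 ≤ w ^ 2) (hw4 : w ^ 2 ≤ 4 * F.card)
    (hT2 : (Z ^ 2).trace ≤ F.card + D) (hT2' : (Z ^ 2).trace ≤ 2 * F.card) (hD : 0 ≤ D)
    (hT : |Z.trace| ≤ T) : Q4 F Z ≤ 1 / 2 * F.card + YS s v T D := by
  have hN : (1 : ℝ) ≤ F.card := by exact_mod_cast h.card
  have hN0 : (0 : ℝ) < F.card := by linarith
  have h1 := h.Q4_le_V he hm hm1 (by linarith) hv hw hS hV hW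
  have hT0 : 0 ≤ T := (abs_nonneg _).trans hT
  have hsv : 0 ≤ s * v := mul_nonneg (by linarith) hv
  have a1 : m ^ 2 * (Z ^ 2).trace ≤ 1 / 2 * F.card + D := by
    calc m ^ 2 * (Z ^ 2).trace ≤ m ^ 2 * (F.card + D) :=
          mul_le_mul_of_nonneg_left hT2 (sq_nonneg _)
      _ ≤ 1 / 2 * (F.card + D) := mul_le_mul_of_nonneg_right hm2 (by positivity)
      _ ≤ _ := by linarith
  have a2 : ε * Z.trace ≤ T := by
    have : ε * Z.trace ≤ |Z.trace| := by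
      rcases he with rfl | rfl
      · rw [one_mul]; exact le_abs_self _
      · rw [neg_one_mul]; exact neg_le_abs _
    linarith
  have a3 : 2 * m * (ε * Z.trace + s * v) ≤ 2 * (T + s * v) := by
    have : 2 * m * (ε * Z.trace + s * v) ≤ 2 * m * (T + s * v) :=
      mul_le_mul_of_nonneg_left (by linarith) (by positivity)
    have : 2 * m * (T + s * v) ≤ 2 * (T + s * v) := by nlinarith
    linarith
  have a4 : 2 / (F.card : ℝ) * (3 * (Z ^ 2).trace + 2 * (s * w) + w ^ 2) ≤ 30 * s ^ 2 := by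
    have b1 : 2 * (s * w) ≤ s ^ 2 + w ^ 2 := by nlinarith [sq_nonneg (s - w)]
    have b2 : 3 * (Z ^ 2).trace + 2 * (s * w) + w ^ 2 ≤ s ^ 2 + 14 * F.card := by linarith
    have b3 : s ^ 2 + 14 * (F.card : ℝ) ≤ F.card * (15 * s ^ 2) := by
      have c0 : 1 ≤ s ^ 2 := one_le_pow₀ hs
      have c1 : 0 ≤ ((F.card : ℝ) - 1) * s ^ 2 := mul_nonneg (by linarith) (sq_nonneg s)
      have c2 : 0 ≤ (F.card : ℝ) * (s ^ 2 - 1) := mul_nonneg hN0.le (by linarith)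
      linarith
    rw [div_mul_eq_mul_div, div_le_iff₀ hN0]
    linarith
  unfold YS
  linarith

/-- `|Σ Z_cc w_c| ≤ T + s v` -/
theorem abs_sum_zw {m s v T : ℝ} (h : Sg F Z m ε) (hs : 0 ≤ s) (hv : 0 ≤ v)
    (hS : ∑ a ∈ F, Z a a ^ 2 ≤ s ^ 2) (hV : ∑ a ∈ F, ((Z ^ 2) a a - 1) ^ 2 ≤ v ^ 2)
    (hT : |Z.trace| ≤ T) : |∑ c ∈ F, Z c c * (Z ^ 2) c c| ≤ T + s * v := by
  have e1 : ∑ a ∈ F, Z a a * (Z ^ 2) a a = Z.trace + ∑ a ∈ F, Z a a * ((Z ^ 2) a a - 1) := by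
    have : Z.trace = ∑ a ∈ F, Z a a := by
      simp only [Matrix.trace, Matrix.diag]
      exact (Finset.sum_subset (Finset.subset_univ F) fun i _ hi => h.supp i i (Or.inl hi)).symm
    rw [this, ← Finset.sum_add_distrib]
    exact Finset.sum_congr rfl fun a _ => by ring
  rw [e1]
  exact (abs_add_le _ _).trans (add_le_add hT (Q.abs_sum_diag_mul_sub_le hS hs hV hv))

/-- the rows of the tilt -/
theorem row_hT {lam Δ : ℝ} (hp : Zp.IsSymm) (hm : Zm.IsSymm) (ht : Tilt.TPar F forb lam Δ)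
    (a : ι) : ∑ b ∈ F, Tilt.hT F forb Zp Zm lam a b ^ 2 ≤ (4 * lam) ^ 2 := by
  classical
  by_cases ha : a ∈ Tilt.gd F Zp Zm
  · have h1 := Tilt.rowH_good_le (F := F) hp hm ha
    calc ∑ b ∈ F, Tilt.hT F forb Zp Zm lam a b ^ 2
        ≤ ∑ b, Tilt.hT F forb Zp Zm lam a b ^ 2 :=
          Finset.sum_le_sum_of_subset_of_nonneg (Finset.subset_univ F) fun _ _ _ => sq_nonneg _
      _ ≤ ∑ b, lam ^ 2 * (Zp a b + Zm a b) ^ 2 := by
          refine Finset.sum_le_sum fun b _ => ?_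
          have := pow_le_pow_left₀ (abs_nonneg _) (Tilt.abs_hT_le (F := F) (forb := forb)
            (Zp := Zp) (Zm := Zm) ht.lam0 a b) 2
          rwa [sq_abs, mul_pow, sq_abs] at this
      _ = lam ^ 2 * ∑ b, (Zp a b + Zm a b) ^ 2 := by rw [Finset.mul_sum]
      _ ≤ lam ^ 2 * 16 := mul_le_mul_of_nonneg_left h1 (sq_nonneg _)
      _ = (4 * lam) ^ 2 := by ring
  · have : ∀ b, Tilt.hT F forb Zp Zm lam a b = 0 := fun b =>
      Tilt.hT_apply_bad fun h => ha h.1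
    simp only [this]
    have h2 : (0 : ℝ) ≤ (4 * lam) ^ 2 := sq_nonneg _
    simpa using h2

theorem col_hT {lam Δ : ℝ} (hp : Zp.IsSymm) (hm : Zm.IsSymm) (ht : Tilt.TPar F forb lam Δ)
    (b : ι) : ∑ a ∈ F, Tilt.hT F forb Zp Zm lam a b ^ 2 ≤ (4 * lam) ^ 2 := by
  have hs : (Tilt.hT F forb Zp Zm lam).IsSymm := Tilt.hT_isSymm hp hm ht.symm
  refine le_trans (le_of_eq (Finset.sum_congr rfl fun a _ => ?_)) (row_hT hp hm ht b)
  rw [hs.apply b a]

/-! ### Parameters of the phases I and II -/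

/-- `N^(1/4)` -/
noncomputable def n4 (n d k : ℕ) : ℝ := mo (LL n) (XX n d k) 0 (1 / 4)
/-- `N^(1/2)` -/
noncomputable def n2 (n d k : ℕ) : ℝ := mo (LL n) (XX n d k) 0 (1 / 2)
/-- the row norm of the tilt -/
noncomputable def HS (n d k : ℕ) : ℝ := if k < k1 n d then 4 * lam n else 0

theorem n4_sq (n d k : ℕ) : n4 n d k ^ 2 = n2 n d k := by
  unfold n4 n2
  rw [mo_pow]; norm_num

theorem n2_sq (h : 0 < Nk n d k) : n2 n d k ^ 2 = Nk n d k := by
  unfold n2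
  rw [mo_pow, Nk_eq_mo h (LL n)]
  norm_num

theorem n4_nonneg (n d k : ℕ) : 0 ≤ n4 n d k := mo_nonneg _ _ _ _
theorem n2_nonneg (n d k : ℕ) : 0 ≤ n2 n d k := mo_nonneg _ _ _ _

theorem wP_eq (n d k : ℕ) : wP n d k = 2 * n2 n d k := rfl

theorem sP_four_le (h : 2000 ≤ sR n) (hk : k < k2 n d) : sP n d k ^ 4 ≤ n2 n d k := by
  have hσ1 : 1 ≤ sR n := by omega
  have hN := Nk_pos hσ1 hk
  have hs1 := sR_one h
  have e1 : sP n d k ^ 4 = (sR n : ℝ) ^ 160 := by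
    rw [show (4 : ℕ) = 2 * 2 from rfl, pow_mul, sP_sq hσ1, ← pow_mul]
  rw [e1]
  refine abs_le_of_sq_le_sq' ?_ (n2_nonneg n d k) |>.2
  rw [n2_sq hN, ← pow_mul]
  exact (pow_le_pow_right₀ hs1 (by norm_num)).trans (Nk_gt hk).le

theorem one_le_n2 (h : 2000 ≤ sR n) (hk : k < k2 n d) : 1 ≤ n2 n d k := by
  have hN := Nk_pos (by omega) hk
  have hs1 := sR_one h
  refine abs_le_of_sq_le_sq' ?_ (n2_nonneg n d k) |>.2
  rw [n2_sq hN, one_pow]
  exact (one_le_pow₀ hs1).trans (Nk_gt hk).le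

theorem one_le_sP (h : 2000 ≤ sR n) : 1 ≤ sP n d k := by
  refine abs_le_of_sq_le_sq' ?_ (sP_nonneg n d k) |>.2
  rw [sP_sq (by omega), one_pow]
  exact one_le_pow₀ (sR_one h)

theorem bds_of (E : EnvA n d k F Zp Zm forb) (hσ : 2000 ≤ sR n) (o : OneA n d k ε F Z) :
    Bds F Z (tP n d k) (sP n d k) (wP n d k) (n2 n d k) (bP n d k) where
  t0 := tP_nonneg _ _ _
  σ0 := sP_nonneg _ _ _
  v0 := wP_nonneg _ _ _
  ν0 := n2_nonneg _ _ _
  b0 := bP_nonneg _ _ _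
  T := o.T2
  S := by
    refine le_trans (le_of_eq ?_) o.S
    exact (Finset.sum_subset (Finset.subset_univ F) fun x _ hx => by
      rw [o.supp x hx x]; norm_num).symm
  V := by
    refine le_trans (le_of_eq ?_) o.W
    exact (Finset.sum_subset (Finset.subset_univ F) fun x _ hx => by
      rw [sq_diag_supp o.supp x hx]; norm_num).symm
  N := by rw [E.card, n2_sq (Nk_pos (by omega) E.k_lt)]
  op := o.opB

theorem forbOK_of {lam : ℝ} (h : Tilt.TPar F forb lam ((d : ℝ) * (d + 1))) :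
    ForbOK F forb ((d : ℝ) * (d + 1)) where
  Δ0 := by positivity
  symm := h.symm
  card := h.card

/-- the number of excluded partners -/
theorem deg_le (hσ : 2000 ≤ sR n) (hk : k < k2 n d) :
    1 + (d : ℝ) * (d + 1) + 128 * wP n d k + 128 * sP n d k ^ 4 ≤
      ((d + 20) * n4 n d k) ^ 2 := by
  have h1 := sP_four_le (d := d) hσ hk
  have h2 := one_le_n2 (d := d) hσ hk
  rw [mul_pow, n4_sq, wP_eq]
  have hd : (0 : ℝ) ≤ d := Nat.cast_nonneg d
  have h3 : (1 + (d : ℝ) * (d + 1)) ≤ (1 + (d : ℝ) * (d + 1)) * n2 n d k := by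
    nlinarith [mul_nonneg hd hd]
  nlinarith [mul_nonneg hd (n2_nonneg n d k), n2_nonneg n d k]

theorem card_ge (E : EnvA n d k F Zp Zm forb) (hσ : 2000 ≤ sR n) : 16 ≤ F.card := by
  have h1 := Nk_gt E.k_lt
  rw [← E.card] at h1
  have h2 : (16 : ℝ) ≤ (sR n : ℝ) ^ 699 := by
    have hs := sR_ge hσ
    calc (16 : ℝ) ≤ (sR n : ℝ) ^ 1 := by rw [pow_one]; linarith
      _ ≤ _ := pow_le_pow_right₀ (sR_one hσ) (by norm_num)
  have h3 : (16 : ℝ) ≤ F.card := h2.trans h1.le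
  exact_mod_cast h3

theorem mu_facts' (hd : 3 ≤ d) : 0 < (√((d : ℝ) - 1))⁻¹ ∧ (√((d : ℝ) - 1))⁻¹ < 1 ∧
    (√((d : ℝ) - 1))⁻¹ ≤ 3 / 4 ∧ ((√((d : ℝ) - 1))⁻¹) ^ 2 ≤ 1 / 2 := by
  obtain ⟨h1, h2, h3⟩ := mu_facts hd
  have hd' : (3 : ℝ) ≤ d := by exact_mod_cast hd
  refine ⟨h1, h2, (mu_le hd).trans (by norm_num), ?_⟩
  nlinarith [sq_nonneg ((√((d : ℝ) - 1))⁻¹)]

theorem hyp_of (E : EnvA n d k F Zp Zm forb) (hσ : 2000 ≤ sR n) (hs : Sgn Zp Zm ε Z) :
    Hyp F Z (adm F forb Zp Zm) (hA n d k F forb Zp Zm) (tP n d k) (sP n d k) (wP n d k)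
      (2 * n4 n d k) (2 * sP n d k) (eP n d k) ((d + 20) * n4 n d k) (HS n d k) (n2 n d k) := by
  have o := E.oneA hs
  have hσ1 : 1 ≤ sR n := by omega
  have hN := Nk_pos hσ1 E.k_lt
  have hs1 := one_le_sP (n := n) (d := d) (k := k) hσ
  have hlam := lam_pos (n := n) hσ1
  have hd : (0 : ℝ) ≤ d := Nat.cast_nonneg d
  have hn4 := n4_nonneg n d k
  have heps : ε = 1 ∨ ε = -1 := Rate.Sgn.eps hs
  obtain ⟨m1, m2, m3, m4⟩ := mu_facts' E.d3
  have bp := bds_of E hσ E.p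
  have bm := bds_of E hσ E.m
  have fo := forbOK_of E.tp
  have hdeg := deg_le (d := d) hσ E.k_lt
  refine ⟨⟨o.symm, fun i j hi => o.supp i hi j, o.row⟩, adm_subset _ _ _ _, adm_ok Zp Zm hs,
    tP_nonneg _ _ _, sP_nonneg _ _ _, wP_nonneg _ _ _, by positivity, by linarith,
    eP_nonneg _ _ _, by positivity, ?_, n2_nonneg _ _ _, o.T2, o.S, o.W, ?_, ?_, ?_,
    card_compl_le E hσ1, ?_, ?_, fun p _ => abs_hA_le E p.1 p.2, ?_, ?_⟩
  · unfold HS; split_ifs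
    · linarith
    · exact le_rfl
  · intro a ha
    have h1 := Q.sq_diag_le_of_W o.W (wP_nonneg _ _ _) ha
    rw [mul_pow, n4_sq]
    rw [wP_eq] at h1
    linarith [n2_nonneg n d k]
  · intro a b
    have := abs_entry_le o.sg heps m1 m3 (card_ge E hσ) (sP_nonneg _ _ _) o.S a b
    linarith
  · rw [E.card, n2_sq hN]
  · intro a ha
    exact (rows_adm_le fo bp bm E.p.symm E.m.symm ha).trans hdeg
  · intro a ha
    exact (cols_adm_le fo bp bm E.p.symm E.m.symm ha).trans hdeg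
  · intro a _
    unfold hA HS
    by_cases hk : k < k1 n d
    · simp only [if_pos hk]
      exact row_hT E.p.symm E.m.symm E.tp a
    · simp [if_neg hk]
  · intro b _
    unfold hA HS
    by_cases hk : k < k1 n d
    · simp only [if_pos hk]
      exact col_hT E.p.symm E.m.symm E.tp b
    · simp [if_neg hk]

/-- the parameters `lam`, `cw`, `rb` of the tilt term, zero in the phase II -/
noncomputable def lS (n d k : ℕ) : ℝ := if k < k1 n d then lam n else 0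
noncomputable def cS (n d k : ℕ) : ℝ := if k < k1 n d then cP n d k else 0
noncomputable def rS (n d k : ℕ) : ℝ :=
  if k < k1 n d then Tilt.rbs (lam n) ((d : ℝ) * (d + 1)) (sP n d k) else 0

theorem tilt_le (E : EnvA n d k F Zp Zm forb) (hσ : 2000 ≤ sR n) (hs : Sgn Zp Zm ε Z) :
    -∑ p ∈ adm F forb Zp Zm, hA n d k F forb Zp Zm p.1 p.2 * KK Z p.1 p.2 ≤
      tS (bP n d k) (sP n d k) (vP n d k) (wP n d k) (lS n d k) (cS n d k) (rS n d k) := by
  have o := E.oneA hs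
  by_cases hk : k < k1 n d
  · obtain ⟨Z', hP⟩ := hs.isPair
    have h1 := (E.two hk).tilt_S E.tp hP (wP_nonneg n d k) o.W
    have e1 : ∑ p ∈ adm F forb Zp Zm, hA n d k F forb Zp Zm p.1 p.2 * KK Z p.1 p.2 =
        ∑ c ∈ F, Z c c * (Z * Tilt.hT F forb Zp Zm (lam n) * Z) c c := by
      have : ∀ p : ι × ι, hA n d k F forb Zp Zm p.1 p.2 =
          Tilt.hT F forb Zp Zm (lam n) p.1 p.2 := by
        intro p; unfold hA; rw [if_pos hk]
      simp only [this]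
      rw [sum_h_KK (adm F forb Zp Zm) (Tilt.hT F forb Zp Zm (lam n))
        (fun p hp => Tilt.hT_apply_eq_zero hp) o.symm]
      exact (Finset.sum_subset (Finset.subset_univ F) fun x _ hx => by
        rw [o.supp x hx x, zero_mul]).symm
    rw [e1]
    refine (neg_le_abs _).trans (h1.trans (le_of_eq ?_))
    unfold tS lS cS rS
    simp only [if_pos hk]
  · have e : ∀ p : ι × ι, hA n d k F forb Zp Zm p.1 p.2 * KK Z p.1 p.2 = 0 := by
      intro p; unfold hA; rw [if_neg hk, zero_mul]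
    simp only [e, Finset.sum_const_zero, neg_zero]
    unfold tS lS cS rS
    simp [if_neg hk]

/-- the drift of `S₁` in the phases I and II -/
theorem S1_bd (E : EnvA n d k F Zp Zm forb) (hσ : 2000 ≤ sR n) (hs : Sgn Zp Zm ε Z) :
    ∑ p ∈ adm F forb Zp Zm, (1 - hA n d k F forb Zp Zm p.1 p.2) *
        (Sd ((F.erase p.1).erase p.2) (upd Z p.1 p.2) - Sd F Z) ≤
      gS.ev (env (bP n d k) (tP n d k) (sP n d k) (vP n d k) (wP n d k) (2 * n4 n d k)
        (2 * sP n d k) (eP n d k) ((d + 20) * n4 n d k) (HS n d k) (n2 n d k)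
        (Rate.Kd d * (sR n : ℝ) ^ 384) (lS n d k) (cS n d k) (rS n d k) ((sR n : ℝ) ^ 683)) := by
  have o := E.oneA hs
  have hσ1 : 1 ≤ sR n := by omega
  have hN := Nk_pos hσ1 E.k_lt
  have hs1 := one_le_sP (n := n) (d := d) (k := k) hσ
  have heps : ε = 1 ∨ ε = -1 := Rate.Sgn.eps hs
  obtain ⟨m1, m2, m3, m4⟩ := mu_facts' E.d3
  rw [← gS_ev]
  have hT : |Z.trace| ≤ Rate.Kd d * (sR n : ℝ) ^ 384 := by
    have h1 := Rate.abs_T1_le E.d3 hσ o
    have h2 : |ε| = 1 := hs.abs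
    rwa [abs_mul, h2, one_mul] at h1
  have hν : n2 n d k ^ 2 = (F.card : ℝ) := by rw [n2_sq hN, E.card]
  have hT2 : (Z ^ 2).trace ≤ F.card + (sR n : ℝ) ^ 683 := by
    have h1 := (abs_le.1 o.dD).2
    have h2 : tD n d k ≤ 0 := tD_nonpos hσ E.d3 E.k_lt.le
    rw [E.card]; linarith
  have hT2' : (Z ^ 2).trace ≤ 2 * F.card := by
    have := o.T2
    rw [tP_sq hN] at this
    rw [E.card]; exact this
  have hw4 : wP n d k ^ 2 ≤ 4 * F.card := by rw [wP_sq hN, E.card]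
  have hY0 : 0 ≤ YS (sP n d k) (vP n d k) (Rate.Kd d * (sR n : ℝ) ^ 384) ((sR n : ℝ) ^ 683) := by
    have := vP_nonneg n d k
    have := (abs_nonneg _).trans hT
    have := sP_nonneg n d k
    unfold YS
    positivity
  refine S1_le (hyp_of E hσ hs) hY0 ?_ hT ?_ (tilt_le E hσ hs)
  · rw [hν]
    exact Q4_half o.sg heps m1 m2 m4 hs1 (vP_nonneg _ _ _) (wP_nonneg _ _ _) o.S o.V o.W hw4
      hT2 hT2' (by positivity) hT
  · exact abs_sum_zw o.sg (sP_nonneg _ _ _) (vP_nonneg _ _ _) o.S o.V hT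

/-! ### Exponents -/

/-- the constants, phase I -/
noncomputable def κI (d : ℕ) : ℕ → ℝ :=
  env 1 2 1 1 2 2 2 ((d : ℝ) + 25) ((d : ℝ) + 20) 4 1 (Rate.Kd d) 1 1
    (4 * ((d : ℝ) * (d + 1)) + 300) 1

theorem Kd_nonneg (d : ℕ) : 0 ≤ Rate.Kd d := by unfold Rate.Kd; positivity

theorem env_nonneg {b t s v w r z e g H ν T lam cw rb D : ℝ} (h0 : 0 ≤ b) (h1 : 0 ≤ t)
    (h2 : 0 ≤ s) (h3 : 0 ≤ v) (h4 : 0 ≤ w) (h5 : 0 ≤ r) (h6 : 0 ≤ z) (h7 : 0 ≤ e) (h8 : 0 ≤ g)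
    (h9 : 0 ≤ H) (h10 : 0 ≤ ν) (h11 : 0 ≤ T) (h12 : 0 ≤ lam) (h13 : 0 ≤ cw) (h14 : 0 ≤ rb)
    (h15 : 0 ≤ D) : ∀ i, 0 ≤ env b t s v w r z e g H ν T lam cw rb D i
  | 0 => h0 | 1 => h1 | 2 => h2 | 3 => h3 | 4 => h4 | 5 => h5 | 6 => h6 | 7 => h7 | 8 => h8
  | 9 => h9 | 10 => h10 | 11 => h11 | 12 => h12 | 13 => h13 | 14 => h14 | 15 => h15
  | (_ + 16) => le_refl (0 : ℝ)

theorem κI_nonneg (d : ℕ) : ∀ i, 0 ≤ κI d i :=
  env_nonneg (by norm_num) (by norm_num) (by norm_num) (by norm_num) (by norm_num) (by norm_num)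
    (by norm_num) (by positivity) (by positivity) (by norm_num) (by norm_num) (Kd_nonneg d)
    (by norm_num) (by norm_num) (by positivity) (by norm_num)

/-- the parameters of `S1_bd` -/
noncomputable def ρS (n d k : ℕ) : ℕ → ℝ :=
  env (bP n d k) (tP n d k) (sP n d k) (vP n d k) (wP n d k) (2 * n4 n d k)
    (2 * sP n d k) (eP n d k) ((d + 20) * n4 n d k) (HS n d k) (n2 n d k)
    (Rate.Kd d * (sR n : ℝ) ^ 384) (lS n d k) (cS n d k) (rS n d k) ((sR n : ℝ) ^ 683)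

theorem lS_nonneg (n d k : ℕ) : 0 ≤ lS n d k := by
  unfold lS lam; split_ifs <;> positivity

theorem cS_nonneg (n d k : ℕ) : 0 ≤ cS n d k := by
  unfold cS; split_ifs
  · exact cP_nonneg _ _ _
  · exact le_rfl

theorem rS_nonneg (n d k : ℕ) : 0 ≤ rS n d k := by
  unfold rS Tilt.rbs lam; split_ifs <;> positivity

theorem HS_nonneg (n d k : ℕ) : 0 ≤ HS n d k := by
  unfold HS lam; split_ifs <;> positivity

theorem ρS_nonneg (n d k : ℕ) : ∀ i, 0 ≤ ρS n d k i := by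
  have := n4_nonneg n d k
  have := Kd_nonneg d
  have hs := sP_nonneg n d k
  exact env_nonneg (bP_nonneg _ _ _) (tP_nonneg _ _ _) hs (vP_nonneg _ _ _) (wP_nonneg _ _ _)
    (by positivity) (by linarith) (eP_nonneg _ _ _) (by positivity) (HS_nonneg _ _ _)
    (n2_nonneg _ _ _) (by positivity) (lS_nonneg _ _ _) (cS_nonneg _ _ _) (rS_nonneg _ _ _)
    (by positivity)

theorem mul_Em_nonneg {c : ℝ} (hc : 0 ≤ c) (L X xl xh : ℝ) (y1 y2 : ℤ) :
    0 ≤ c * Asm.Em L X xl xh y1 y2 := mul_nonneg hc (Em_pos _ _ _ _ _ _).le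

theorem rbs_le (hσ : 2000 ≤ sR n) (h2 : 2 * d ≤ sR n) (hd : 3 ≤ d) (hk : k < k1 n d) :
    Tilt.rbs (lam n) ((d : ℝ) * (d + 1)) (sP n d k) ≤
      (4 * ((d : ℝ) * (d + 1)) + 300) * Asm.Em (LL n) (XX n d k) 802 1001 1488 1488 := by
  have R := rg1 hσ h2 hd hk
  unfold Tilt.rbs
  rw [lam_I (d := d) (k := k) hσ, sP_I, Em_pow, Em_pow]
  have e1 := Em_mul (LL n) (XX n d k) 802 1001 ((2 : ℕ) * 160) ((2 : ℕ) * 160) 744 744
  have e2 := Em_le R (show ((2 : ℕ) * 160 + 744 : ℤ) ≤ 1488 by norm_num)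
    (show ((2 : ℕ) * 160 + 744 : ℤ) ≤ 1488 by norm_num)
  have e3 := Em_le R (show (744 : ℤ) ≤ 1488 by norm_num) (show (744 : ℤ) ≤ 1488 by norm_num)
  have e4 : Asm.Em (LL n) (XX n d k) 802 1001 ((2 : ℕ) * 744) ((2 : ℕ) * 744) =
      Asm.Em (LL n) (XX n d k) 802 1001 1488 1488 := by norm_num
  rw [e4]
  rw [← e1] at e2
  have hd0 : (0 : ℝ) ≤ (d : ℝ) * (d + 1) := by positivity
  set a := Asm.Em (LL n) (XX n d k) 802 1001 1488 1488
  set c := Asm.Em (LL n) (XX n d k) 802 1001 744 744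
  set q := Asm.Em (LL n) (XX n d k) 802 1001 ((2 : ℕ) * 160) ((2 : ℕ) * 160)
  have h1 : (4 * (1 + (d : ℝ) * (d + 1)) + 128) * c ≤
      (4 * (1 + (d : ℝ) * (d + 1)) + 128) * a :=
    mul_le_mul_of_nonneg_left e3 (by positivity)
  have ha : 0 < a := Em_pos _ _ _ _ _ _
  nlinarith

theorem n4_I : n4 n d k = Asm.Em (LL n) (XX n d k) 802 1001 802 1001 :=
  mo_eq_Em (by norm_num) (by norm_num) (by norm_num)

theorem n4_II : n4 n d k = Asm.Em (LL n) (XX n d k) 699 802 699 802 :=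
  mo_eq_Em (by norm_num) (by norm_num) (by norm_num)

theorem ρS_le_I (hσ : 2000 ≤ sR n) (h2 : 2 * d ≤ sR n) (hd : 3 ≤ d) (hk : k < k1 n d) :
    ∀ i, ρS n d k i ≤ κI d i * Asm.Em (LL n) (XX n d k) 802 1001 (zI1 i) (zI2 i)
  | 0 => by
      show bP n d k ≤ 1 * _
      rw [one_mul, bP_I]
      exact le_rfl
  | 1 => tP_I
  | 2 => by
      show sP n d k ≤ 1 * _
      rw [one_mul, sP_I]
      exact le_rfl
  | 3 => by
      show vP n d k ≤ 1 * _
      rw [one_mul, vP_I hk]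
      exact le_rfl
  | 4 => by
      show wP n d k ≤ 2 * _
      rw [wP_I]
      exact le_rfl
  | 5 => by
      show 2 * n4 n d k ≤ 2 * _
      rw [n4_I]
      exact le_rfl
  | 6 => by
      show 2 * sP n d k ≤ 2 * _
      rw [sP_I]
      exact le_rfl
  | 7 => by
      show eP n d k ≤ ((d : ℝ) + 25) * _
      rw [eP_I]
      exact le_rfl
  | 8 => by
      show (d + 20) * n4 n d k ≤ ((d : ℝ) + 20) * _
      rw [n4_I]
      exact le_rfl
  | 9 => by
      show HS n d k ≤ 4 * _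
      unfold HS
      rw [if_pos hk, lam_I (d := d) (k := k) hσ]
      exact le_rfl
  | 10 => by
      show n2 n d k ≤ 1 * _
      rw [one_mul]
      exact (moN_I (n := n) (d := d) (k := k)).le
  | 11 => by
      show Rate.Kd d * (sR n : ℝ) ^ 384 ≤ Rate.Kd d * _
      rw [sR_pow_Em hσ (X := XX n d k) (show (802 : ℝ) < 1001 by norm_num) 384]
      exact le_rfl
  | 12 => by
      show lS n d k ≤ 1 * _
      unfold lS
      rw [if_pos hk, one_mul, lam_I (d := d) (k := k) hσ]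
      exact le_rfl
  | 13 => by
      show cS n d k ≤ 1 * _
      unfold cS
      rw [if_pos hk, one_mul, cP_I]
      exact le_rfl
  | 14 => by
      show rS n d k ≤ (4 * ((d : ℝ) * (d + 1)) + 300) * _
      unfold rS
      rw [if_pos hk]
      exact rbs_le hσ h2 hd hk
  | 15 => by
      show (sR n : ℝ) ^ 683 ≤ 1 * _
      rw [one_mul, sR_pow_Em hσ (X := XX n d k) (show (802 : ℝ) < 1001 by norm_num) 683]
      exact le_rfl
  | (_ + 16) => by
      show (0 : ℝ) ≤ 0 * _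
      rw [zero_mul]

theorem ρS_le_II (hσ : 2000 ≤ sR n) (hk1 : k1 n d ≤ k) :
    ∀ i, ρS n d k i ≤ κI d i * Asm.Em (LL n) (XX n d k) 699 802 (zII1 i) (zII2 i)
  | 0 => by
      show bP n d k ≤ 1 * _
      rw [one_mul, bP_II]
      exact le_rfl
  | 1 => tP_II
  | 2 => by
      show sP n d k ≤ 1 * _
      rw [one_mul, sP_II]
      exact le_rfl
  | 3 => by
      show vP n d k ≤ 1 * _
      rw [one_mul, vP_II hk1]
      exact le_rfl
  | 4 => by
      show wP n d k ≤ 2 * _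
      rw [wP_II]
      exact le_rfl
  | 5 => by
      show 2 * n4 n d k ≤ 2 * _
      rw [n4_II]
      exact le_rfl
  | 6 => by
      show 2 * sP n d k ≤ 2 * _
      rw [sP_II]
      exact le_rfl
  | 7 => by
      show eP n d k ≤ ((d : ℝ) + 25) * _
      rw [eP_II]
      exact le_rfl
  | 8 => by
      show (d + 20) * n4 n d k ≤ ((d : ℝ) + 20) * _
      rw [n4_II]
      exact le_rfl
  | 9 => by
      show HS n d k ≤ 4 * _
      unfold HS
      rw [if_neg (not_lt.2 hk1)]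
      exact mul_Em_nonneg (by norm_num) _ _ _ _ _ _
  | 10 => by
      show n2 n d k ≤ 1 * _
      rw [one_mul]
      exact (moN_II (n := n) (d := d) (k := k)).le
  | 11 => by
      show Rate.Kd d * (sR n : ℝ) ^ 384 ≤ Rate.Kd d * _
      rw [sR_pow_Em hσ (X := XX n d k) (show (699 : ℝ) < 802 by norm_num) 384]
      exact le_rfl
  | 12 => by
      show lS n d k ≤ 1 * _
      unfold lS
      rw [if_neg (not_lt.2 hk1)]
      exact mul_Em_nonneg (by norm_num) _ _ _ _ _ _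
  | 13 => by
      show cS n d k ≤ 1 * _
      unfold cS
      rw [if_neg (not_lt.2 hk1)]
      exact mul_Em_nonneg (by norm_num) _ _ _ _ _ _
  | 14 => by
      show rS n d k ≤ (4 * ((d : ℝ) * (d + 1)) + 300) * _
      unfold rS
      rw [if_neg (not_lt.2 hk1)]
      exact mul_Em_nonneg (by positivity) _ _ _ _ _ _
  | 15 => by
      show (sR n : ℝ) ^ 683 ≤ 1 * _
      rw [one_mul, sR_pow_Em hσ (X := XX n d k) (show (699 : ℝ) < 802 by norm_num) 683]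
      exact le_rfl
  | (_ + 16) => by
      show (0 : ℝ) ≤ 0 * _
      rw [zero_mul]

/-- **rate lemma for `S₁`** (phases I and II) -/
theorem rate_S (d : ℕ) : ∃ C : ℝ, 0 ≤ C ∧ ∃ s₀ : ℕ, ∀ {ι : Type*} [Fintype ι] [DecidableEq ι]
    (n k : ℕ) (F : Finset ι) (Zp Zm : Matrix ι ι ℝ) (forb : ι → ι → Prop), s₀ ≤ sR n →
    EnvA n d k F Zp Zm forb → ∀ (ε : ℝ) (Z : Matrix ι ι ℝ), Sgn Zp Zm ε Z →
    ∑ p ∈ adm F forb Zp Zm, (1 - hA n d k F forb Zp Zm p.1 p.2) *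
      (fS n ((F.erase p.1).erase p.2) (upd Z p.1 p.2) - fS n F Z) ≤ C * rT n d k := by
  have hC0 : 0 ≤ gS.cs (κI d) :=
    (Ex.ev_le (L := 1) (X := 1) (xl := 0) (xh := 2) ⟨by norm_num, by norm_num, by norm_num⟩
      (ρ := fun _ => 0) (κ := κI d) (y1 := fun _ => 0) (y2 := fun _ => 0) (fun _ => le_rfl)
      (fun i => mul_Em_nonneg (κI_nonneg d i) _ _ _ _ _ _) (κI_nonneg d) gS).1
  refine ⟨gS.cs (κI d), hC0, max 2000 (2 * d), ?_⟩
  intro ι _ _ n k F Zp Zm forb hs0 E ε Z hs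
  have hσ : 2000 ≤ sR n := le_trans (le_max_left _ _) hs0
  have h2 : 2 * d ≤ sR n := le_trans (le_max_right _ _) hs0
  have hσ0 : (0 : ℝ) < sR n := sR_pos hσ
  have hc : (0 : ℝ) < (sR n : ℝ) ^ 80 := by positivity
  have e1 : ∀ p : ι × ι, (1 - hA n d k F forb Zp Zm p.1 p.2) *
      (fS n ((F.erase p.1).erase p.2) (upd Z p.1 p.2) - fS n F Z) =
      ((1 - hA n d k F forb Zp Zm p.1 p.2) *
        (Sd ((F.erase p.1).erase p.2) (upd Z p.1 p.2) - Sd F Z)) / (sR n : ℝ) ^ 80 := by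
    intro p; unfold fS; ring
  simp only [e1]
  rw [← Finset.sum_div, div_le_iff₀ hc]
  refine (S1_bd E hσ hs).trans ?_
  change gS.ev (ρS n d k) ≤ _
  rcases lt_or_ge k (k1 n d) with hk | hk
  · have R := rg1 hσ h2 E.d3 hk
    have h3 := Ex.bound gS R zI1 zI2 gS_I1 gS_I2 (ρS_nonneg n d k) (κI_nonneg d)
      (ρS_le_I hσ h2 E.d3 hk)
    refine h3.trans (le_of_eq ?_)
    rw [rT_I, sR_pow_Em hσ (X := XX n d k) (show (802 : ℝ) < 1001 by norm_num) 80, mul_assoc,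
      Em_mul]
    norm_num
  · have R := rg2 hσ E.d3 hk E.k_lt
    have h3 := Ex.bound gS R zII1 zII2 gS_II1 gS_II2 (ρS_nonneg n d k) (κI_nonneg d)
      (ρS_le_II hσ hk)
    refine h3.trans (le_of_eq ?_)
    rw [rT_II, sR_pow_Em hσ (X := XX n d k) (show (699 : ℝ) < 802 by norm_num) 80, mul_assoc,
      Em_mul]
    norm_num

end Vale.Agent.P049.TS.S1
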