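import Vale.Agent.P049.TS.S1.Drift
import Vale.Agent.P049.TS.Asm.Expo

/-!
The drift of `S₁` in closed form: `Σ (1-h) (S₁' - S₁) ≤ GS` for a polynomial `GS` in the parameters
(with the negative rate `-2N S₁` used against the inheritance `Q₄ S₁`), and its exponents.
-/

set_option linter.unusedSectionVars false

namespace Vale.Agent.P049.TS.S1

open Matrix Finset Vale.Agent.P049.TS.Asm

variable {ι : Type*} [Fintype ι] [DecidableEq ι]
variable {F : Finset ι} {Z : Matrix ι ι ℝ} {A : Finset (ι × ι)} {h : ι → ι → ℝ}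
  {t s w r z e g H ν Y X T τ : ℝ}

/-- the closed bound -/
noncomputable def GS (t s w r z e g H ν Y X T τ : ℝ) : ℝ :=
  4 * s ^ 2 * Y + 4 * T + 4 * T * X + 4 * τ + errS1 t s w r z e g H ν

/-- **abstract bound** -/
theorem S1_le (hy : Hyp F Z A h t s w r z e g H ν) (hY : 0 ≤ Y)
    (hQ : Q4 F Z ≤ 1 / 2 * ν ^ 2 + Y) (hT : |Z.trace| ≤ T)
    (hX : |∑ c ∈ F, Z c c * (Z ^ 2) c c| ≤ X)
    (hτ : -∑ p ∈ A, h p.1 p.2 * KK Z p.1 p.2 ≤ τ) :
    ∑ p ∈ A, (1 - h p.1 p.2) * (Sd ((F.erase p.1).erase p.2) (upd Z p.1 p.2) - Sd F Z) ≤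
      GS t s w r z e g H ν Y X T τ := by
  have h1 := S1_mean hy
  have hS0 := Sd_nonneg F Z
  have hS : Sd F Z ≤ s ^ 2 := hy.S
  have hν : 0 ≤ ν ^ 2 := sq_nonneg ν
  have h2 : Q4 F Z * Sd F Z ≤ (1 / 2 * ν ^ 2 + Y) * Sd F Z := mul_le_mul_of_nonneg_right hQ hS0
  have h3 : Y * Sd F Z ≤ Y * s ^ 2 := mul_le_mul_of_nonneg_left hS hY
  have h4 : 0 ≤ ν ^ 2 * Sd F Z := mul_nonneg hν hS0
  have h5 : 0 ≤ Y * s ^ 2 := mul_nonneg hY (sq_nonneg s)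
  have h6 : Z.trace ≤ T := (le_abs_self _).trans hT
  have h7 : Z.trace * ∑ c ∈ F, Z c c * (Z ^ 2) c c ≤ T * X := by
    refine (le_abs_self _).trans ?_
    rw [abs_mul]
    exact mul_le_mul hT hX (abs_nonneg _) ((abs_nonneg _).trans hT)
  unfold GS
  linarith [show (1 / 2 * ν ^ 2 + Y) * Sd F Z = 1 / 2 * (ν ^ 2 * Sd F Z) + Y * Sd F Z by ring,
    show -2 * ν ^ 2 * Sd F Z = -2 * (ν ^ 2 * Sd F Z) by ring]

/-- the standard choices `Y`, `X`, `τ` -/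
noncomputable def YS (s v T D : ℝ) : ℝ :=
  D + 2 * T + 2 * s * v + s ^ 2 * (1 + v) + s ^ 4 + 30 * s ^ 2

/-- the bound of the tilt term -/
noncomputable def tS (b s v w lam cw rb : ℝ) : ℝ :=
  lam * s * (2 * b ^ 2 + 2 * cw + 12 * (b * v) + 3 * v ^ 2) + rb * s * w

/-- the expression -/
abbrev gS : Ex :=
  4 * .v 2 ^ 2 * (.v 15 + 2 * .v 11 + 2 * .v 2 * .v 3 + .v 2 ^ 2 * (1 + .v 3) + .v 2 ^ 4 +
      30 * .v 2 ^ 2) + 4 * .v 11 + 4 * .v 11 * (.v 11 + .v 2 * .v 3) +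
    4 * (.v 12 * .v 2 * (2 * .v 0 ^ 2 + 2 * .v 13 + 12 * (.v 0 * .v 3) + 3 * .v 3 ^ 2) +
      .v 14 * .v 2 * .v 4) +
    (2 * .v 8 ^ 2 * .v 2 ^ 2 + 2 * .v 9 * .v 2 ^ 2 * .v 10 +
      21 * (.v 5 + .v 2 ^ 2) * .v 2 ^ 2 * .v 10 + 4 * .v 7 * .v 2 * .v 4 +
      4 * (.v 8 + .v 9) * .v 2 ^ 2 * .v 4 + 24 * (.v 5 + .v 2 ^ 2) * .v 2 ^ 2 * .v 4 +
      12 * (.v 1 + .v 2 ^ 2) * .v 2 * .v 4 +
      42 * (.v 5 + .v 2 ^ 2) * .v 2 ^ 2 * .v 6 ^ 2 * .v 4 + 99 * .v 4 ^ 2)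

/-- the environment -/
def env (b t s v w r z e g H ν T lam cw rb D : ℝ) : ℕ → ℝ
  | 0 => b | 1 => t | 2 => s | 3 => v | 4 => w | 5 => r | 6 => z | 7 => e | 8 => g | 9 => H
  | 10 => ν | 11 => T | 12 => lam | 13 => cw | 14 => rb | 15 => D | _ => 0

/-- the integer environment -/
def enz (b t s v w r z e g H ν T lam cw rb D : ℤ) : ℕ → ℤ
  | 0 => b | 1 => t | 2 => s | 3 => v | 4 => w | 5 => r | 6 => z | 7 => e | 8 => g | 9 => H
  | 10 => ν | 11 => T | 12 => lam | 13 => cw | 14 => rb | 15 => D | _ => 0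

theorem gS_ev (b t s v w r z e g H ν T lam cw rb D : ℝ) :
    GS t s w r z e g H ν (YS s v T D) (T + s * v) T (tS b s v w lam cw rb) =
      gS.ev (env b t s v w r z e g H ν T lam cw rb D) := by
  simp only [gS, Ex.ev_add, Ex.ev_mul, Ex.ev_pow, Ex.ev_ofNat, Ex.ev_v, env, GS, YS, tS, errS1]
  push_cast
  ring

/-- phase I, lower end `σ^802` -/
abbrev zI1 := enz 1201 1604 160 1220 1604 802 160 1604 802 744 1604 1536 744 1724 1488 2732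
/-- phase I, upper end `σ^1001` -/
abbrev zI2 := enz 1002 2002 160 1220 2002 1001 160 2002 1001 744 2002 1536 744 2122 1488 2732
/-- phase II, lower end `σ^699` -/
abbrev zII1 := enz 1304 1398 160 1380 1398 699 160 1398 699 0 1398 1536 0 0 0 2732
/-- phase II, upper end `σ^802` -/
abbrev zII2 := enz 1201 1604 160 1380 1604 802 160 1604 802 0 1604 1536 0 0 0 2732
/-- phase IIIa, lower end `σ^680` -/
abbrev zC1 := enz 0 1360 208 1380 1380 690 208 1360 690 0 1360 1536 0 0 0 0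
/-- phase IIIa, upper end `σ^699` -/
abbrev zC2 := enz 0 1398 208 1456 1456 728 208 1398 728 0 1398 1536 0 0 0 0

theorem gS_I1 : gS.y zI1 ≤ 3524 := by decide
theorem gS_I2 : gS.y zI2 ≤ 4320 := by decide
theorem gS_II1 : gS.y zII1 ≤ 3112 := by decide
theorem gS_II2 : gS.y zII2 ≤ 3524 := by decide
theorem gS_C1 : gS.y zC1 ≤ 3132 := by decide
theorem gS_C2 : gS.y zC2 ≤ 3208 := by decide

end Vale.Agent.P049.TS.S1
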