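import Vale.Agent.P049.TS.S1.Pt
import Vale.Agent.P049.TS.Q4.Q4

/-!
The drift of `S₁ = Σ Z_cc²` (g-form) over the admissible pairs with weights `1 - h`.
-/

set_option linter.unusedSectionVars false

namespace Vale.Agent.P049.TS.S1

open Matrix Finset

variable {ι : Type*} [Fintype ι] [DecidableEq ι]
variable {F : Finset ι} {Z : Matrix ι ι ℝ} {A : Finset (ι × ι)} {h : ι → ι → ℝ}
  {t s w r z e g H ν : ℝ}

/-! ### Weighted sums with bounded rows -/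

/-- an array with rows bounded in `ℓ²` against a product array -/
theorem rowN (hA : A ⊆ F ×ˢ F) (M : ι → ι → ℝ) (f k : ι → ℝ) {R f1 K : ℝ} (hR : 0 ≤ R)
    (hK : 0 ≤ K) (hM : ∀ a ∈ F, ∑ b ∈ F, M a b ^ 2 ≤ R ^ 2) (hf : ∑ a ∈ F, |f a| ≤ f1)
    (hk : ∑ b ∈ F, k b ^ 2 ≤ K ^ 2) :
    ∑ p ∈ A, |M p.1 p.2| * (|f p.1| * |k p.2|) ≤ R * (f1 * K) := by
  have h1 : ∑ p ∈ A, |M p.1 p.2| * (|f p.1| * |k p.2|) ≤
      ∑ p ∈ F ×ˢ F, |M p.1 p.2| * (|f p.1| * |k p.2|) :=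
    Finset.sum_le_sum_of_subset_of_nonneg hA fun p _ _ => by positivity
  refine h1.trans ?_
  rw [Finset.sum_product]
  have h2 : ∀ a ∈ F, ∑ b ∈ F, |M a b| * (|f a| * |k b|) ≤ |f a| * (R * K) := by
    intro a ha
    have e1 : ∑ b ∈ F, |M a b| * (|f a| * |k b|) = |f a| * ∑ b ∈ F, |M a b| * |k b| := by
      rw [Finset.mul_sum]
      exact Finset.sum_congr rfl fun b _ => by ring
    rw [e1]
    exact mul_le_mul_of_nonneg_left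
      (sumF_mul_le F (fun b => M a b) k hR hK (hM a ha) hk) (abs_nonneg _)
  refine (Finset.sum_le_sum h2).trans ?_
  rw [← Finset.sum_mul]
  calc (∑ a ∈ F, |f a|) * (R * K) ≤ f1 * (R * K) :=
        mul_le_mul_of_nonneg_right hf (mul_nonneg hR hK)
    _ = R * (f1 * K) := by ring

/-- the same with columns -/
theorem colN (hA : A ⊆ F ×ˢ F) (M : ι → ι → ℝ) (f k : ι → ℝ) {R f1 K : ℝ} (hR : 0 ≤ R)
    (hK : 0 ≤ K) (hM : ∀ b ∈ F, ∑ a ∈ F, M a b ^ 2 ≤ R ^ 2) (hf : ∑ a ∈ F, |f a| ≤ f1)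
    (hk : ∑ b ∈ F, k b ^ 2 ≤ K ^ 2) :
    ∑ p ∈ A, |M p.1 p.2| * (|k p.1| * |f p.2|) ≤ R * (f1 * K) := by
  have h1 : ∑ p ∈ A, |M p.1 p.2| * (|k p.1| * |f p.2|) ≤
      ∑ p ∈ F ×ˢ F, |M p.1 p.2| * (|k p.1| * |f p.2|) :=
    Finset.sum_le_sum_of_subset_of_nonneg hA fun p _ _ => by positivity
  refine h1.trans ?_
  rw [Finset.sum_product_right]
  have h2 : ∀ b ∈ F, ∑ a ∈ F, |M a b| * (|k a| * |f b|) ≤ |f b| * (R * K) := by
    intro b hb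
    have e1 : ∑ a ∈ F, |M a b| * (|k a| * |f b|) = |f b| * ∑ a ∈ F, |M a b| * |k a| := by
      rw [Finset.mul_sum]
      exact Finset.sum_congr rfl fun b _ => by ring
    rw [e1]
    exact mul_le_mul_of_nonneg_left
      (sumF_mul_le F (fun a => M a b) k hR hK (hM b hb) hk) (abs_nonneg _)
  refine (Finset.sum_le_sum h2).trans ?_
  rw [← Finset.sum_mul]
  calc (∑ a ∈ F, |f a|) * (R * K) ≤ f1 * (R * K) :=
        mul_le_mul_of_nonneg_right hf (mul_nonneg hR hK)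
    _ = R * (f1 * K) := by ring

theorem row_ind {E : Finset (ι × ι)} (hE : E ⊆ F ×ˢ F) {a : ι} (ha : a ∈ F) :
    ∑ b ∈ F, (if (a, b) ∈ E then (1 : ℝ) else 0) ^ 2 =
      (((E.filter fun p => p.1 = a).card : ℕ) : ℝ) := by
  rw [Finset.card_filter, Nat.cast_sum]
  have h1 : ∑ p ∈ E, (((if p.1 = a then 1 else 0 : ℕ)) : ℝ) =
      ∑ p ∈ F ×ˢ F, (if p ∈ E then (if p.1 = a then (1 : ℝ) else 0) else 0) := by
    rw [← Finset.sum_filter]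
    have : (F ×ˢ F).filter (· ∈ E) = E := by
      ext p; simp only [Finset.mem_filter]; exact ⟨fun h => h.2, fun h => ⟨hE h, h⟩⟩
    rw [this]
    exact Finset.sum_congr rfl fun p _ => by split_ifs <;> simp
  rw [h1, Finset.sum_product]
  symm
  rw [Finset.sum_eq_single a]
  · exact Finset.sum_congr rfl fun b _ => by simp
  · intro c _ hc
    exact Finset.sum_eq_zero fun b _ => by simp [hc]
  · intro h; exact absurd ha h

theorem col_ind {E : Finset (ι × ι)} (hE : E ⊆ F ×ˢ F) {b : ι} (hb : b ∈ F) :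
    ∑ a ∈ F, (if (a, b) ∈ E then (1 : ℝ) else 0) ^ 2 =
      (((E.filter fun p => p.2 = b).card : ℕ) : ℝ) := by
  rw [Finset.card_filter, Nat.cast_sum]
  have h1 : ∑ p ∈ E, (((if p.2 = b then 1 else 0 : ℕ)) : ℝ) =
      ∑ p ∈ F ×ˢ F, (if p ∈ E then (if p.2 = b then (1 : ℝ) else 0) else 0) := by
    rw [← Finset.sum_filter]
    have : (F ×ˢ F).filter (· ∈ E) = E := by
      ext p; simp only [Finset.mem_filter]; exact ⟨fun h => h.2, fun h => ⟨hE h, h⟩⟩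
    rw [this]
    exact Finset.sum_congr rfl fun p _ => by split_ifs <;> simp
  rw [h1, Finset.sum_product_right]
  symm
  rw [Finset.sum_eq_single b]
  · exact Finset.sum_congr rfl fun a _ => by simp
  · intro c _ hc
    exact Finset.sum_eq_zero fun b _ => by simp [hc]
  · intro h; exact absurd hb h

/-- a sparse set against a product array -/
theorem rowE {E : Finset (ι × ι)} (hE : E ⊆ F ×ˢ F) (f k : ι → ℝ) {f1 K : ℝ} (hg : 0 ≤ g)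
    (hK : 0 ≤ K) (hrow : ∀ a ∈ F, (((E.filter fun p => p.1 = a).card : ℕ) : ℝ) ≤ g ^ 2)
    (hf : ∑ a ∈ F, |f a| ≤ f1) (hk : ∑ b ∈ F, k b ^ 2 ≤ K ^ 2) :
    ∑ p ∈ E, |f p.1| * |k p.2| ≤ g * (f1 * K) := by
  have := rowN hE (fun a b => if (a, b) ∈ E then (1 : ℝ) else 0) f k hg hK
    (fun a ha => by rw [row_ind hE ha]; exact hrow a ha) hf hk
  refine le_trans (le_of_eq (Finset.sum_congr rfl fun p hp => ?_)) this
  have : ((p.1, p.2) : ι × ι) ∈ E := hp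
  simp [this]

theorem colE {E : Finset (ι × ι)} (hE : E ⊆ F ×ˢ F) (f k : ι → ℝ) {f1 K : ℝ} (hg : 0 ≤ g)
    (hK : 0 ≤ K) (hcol : ∀ a ∈ F, (((E.filter fun p => p.2 = a).card : ℕ) : ℝ) ≤ g ^ 2)
    (hf : ∑ a ∈ F, |f a| ≤ f1) (hk : ∑ b ∈ F, k b ^ 2 ≤ K ^ 2) :
    ∑ p ∈ E, |k p.1| * |f p.2| ≤ g * (f1 * K) := by
  have := colN hE (fun a b => if (a, b) ∈ E then (1 : ℝ) else 0) f k hg hK
    (fun a ha => by rw [col_ind hE ha]; exact hcol a ha) hf hk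
  refine le_trans (le_of_eq (Finset.sum_congr rfl fun p hp => ?_)) this
  have : ((p.1, p.2) : ι × ι) ∈ E := hp
  simp [this]

/-- the hypotheses -/
structure Hyp (F : Finset ι) (Z : Matrix ι ι ℝ) (A : Finset (ι × ι)) (h : ι → ι → ℝ)
    (t s w r z e g H ν : ℝ) : Prop where
  base : ZBase F Z
  sub : A ⊆ F ×ˢ F
  ok : ∀ p ∈ A, p.1 ≠ p.2 ∧ PairOK Z p.1 p.2
  t0 : 0 ≤ t
  s0 : 0 ≤ s
  w0 : 0 ≤ w
  r0 : 0 ≤ r
  z0 : 0 ≤ z
  e0 : 0 ≤ e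
  g0 : 0 ≤ g
  H0 : 0 ≤ H
  n0 : 0 ≤ ν
  /-- `tr Z² ≤ t²` -/
  T : (Z ^ 2).trace ≤ t ^ 2
  /-- `Σ Z_aa² ≤ s²` -/
  S : ∑ a ∈ F, Z a a ^ 2 ≤ s ^ 2
  /-- `Σ w_a² ≤ w²` -/
  W : ∑ a ∈ F, (Z ^ 2) a a ^ 2 ≤ w ^ 2
  /-- `w_a ≤ r²` -/
  R : ∀ a ∈ F, (Z ^ 2) a a ≤ r ^ 2
  /-- `|Z_ab| ≤ z` -/
  Zb : ∀ a b, |Z a b| ≤ z
  N : (F.card : ℝ) = ν ^ 2
  /-- the number of excluded pairs -/
  card : (((((F ×ˢ F) \ A)).card : ℕ) : ℝ) ≤ e ^ 2
  /-- the number of excluded partners -/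
  rows : ∀ a ∈ F, ((((((F ×ˢ F) \ A)).filter fun p => p.1 = a).card : ℕ) : ℝ) ≤ g ^ 2
  cols : ∀ a ∈ F, ((((((F ×ˢ F) \ A)).filter fun p => p.2 = a).card : ℕ) : ℝ) ≤ g ^ 2
  hh : ∀ p ∈ A, |h p.1 p.2| ≤ 1 / 2
  hrow : ∀ a ∈ F, ∑ b ∈ F, h a b ^ 2 ≤ H ^ 2
  hcol : ∀ b ∈ F, ∑ a ∈ F, h a b ^ 2 ≤ H ^ 2

/-- `κ_a = Σ_c Z_cc Z_ac²` -/
def kk (Z : Matrix ι ι ℝ) (a : ι) : ℝ := ∑ c, Z c c * Z a c ^ 2

/-- `Σ_c |Z_cc| Z_ac²` -/
def ka (Z : Matrix ι ι ℝ) (a : ι) : ℝ := ∑ c, |Z c c| * Z a c ^ 2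

/-- `K_ab = Σ_c Z_cc Z_ac Z_bc` -/
def KK (Z : Matrix ι ι ℝ) (a b : ι) : ℝ := ∑ c, Z c c * (Z a c * Z b c)

/-- `Σ_c |Z_cc| |Z_ac| |Z_bc|` -/
def Ka (Z : Matrix ι ι ℝ) (a b : ι) : ℝ := ∑ c, |Z c c| * (|Z a c| * |Z b c|)

/-- `Σ_c Z_ac⁴` -/
def q4 (Z : Matrix ι ι ℝ) (a : ι) : ℝ := ∑ c, Z a c ^ 4

theorem ka_nonneg (Z : Matrix ι ι ℝ) (a : ι) : 0 ≤ ka Z a :=
  Finset.sum_nonneg fun c _ => by positivity

theorem Ka_nonneg (Z : Matrix ι ι ℝ) (a b : ι) : 0 ≤ Ka Z a b :=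
  Finset.sum_nonneg fun c _ => by positivity

theorem q4_nonneg (Z : Matrix ι ι ℝ) (a : ι) : 0 ≤ q4 Z a :=
  Finset.sum_nonneg fun c _ => by positivity

theorem abs_kk_le (Z : Matrix ι ι ℝ) (a : ι) : |kk Z a| ≤ ka Z a := by
  refine (Finset.abs_sum_le_sum_abs _ _).trans (le_of_eq ?_)
  exact Finset.sum_congr rfl fun c _ => by rw [abs_mul, abs_of_nonneg (sq_nonneg (Z a c))]

theorem abs_KK_le (Z : Matrix ι ι ℝ) (a b : ι) : |KK Z a b| ≤ Ka Z a b := by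
  refine (Finset.abs_sum_le_sum_abs _ _).trans (le_of_eq ?_)
  exact Finset.sum_congr rfl fun c _ => by rw [abs_mul, abs_mul]

namespace Hyp

variable (hy : Hyp F Z A h t s w r z e g H ν)
include hy

theorem hw0 (c : ι) : 0 ≤ (Z ^ 2) c c := TS.sq_diag_nonneg hy.base.symm c

theorem colF (c : ι) : ∑ a ∈ F, Z a c ^ 2 = (Z ^ 2) c c := by
  rw [sq_diag_eq hy.base.symm]
  rw [Finset.sum_subset (Finset.subset_univ F) fun x _ hx => by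
    rw [hy.base.supp x c hx]; norm_num]
  exact Finset.sum_congr rfl fun a _ => by rw [hy.base.symm.apply]

theorem rowF (a : ι) : ∑ b ∈ F, Z a b ^ 2 = (Z ^ 2) a a := by
  rw [← hy.colF a]
  exact Finset.sum_congr rfl fun b _ => by rw [hy.base.symm.apply]

theorem Zcc_off {c : ι} (hc : c ∉ F) : Z c c = 0 := hy.base.supp c c hc

theorem wc_off {c : ι} (hc : c ∉ F) : (Z ^ 2) c c = 0 := hy.base.pow_supp 1 c c hc

/-- `Σ_c |Z_cc| w_c ≤ s w` -/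
theorem sum_zw : ∑ c, |Z c c| * (Z ^ 2) c c ≤ s * w := by
  rw [← Finset.sum_subset (Finset.subset_univ F) fun x _ hx => by
    rw [hy.Zcc_off hx, abs_zero, zero_mul]]
  have := sumF_mul_le F (fun c => Z c c) (fun c => (Z ^ 2) c c) hy.s0 hy.w0 hy.S hy.W
  simpa [abs_of_nonneg (hy.hw0 _)] using this

theorem sum_ka : ∑ a ∈ F, ka Z a ≤ s * w := by
  unfold ka
  rw [Finset.sum_comm]
  refine le_trans (le_of_eq (Finset.sum_congr rfl fun c _ => ?_)) hy.sum_zw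
  rw [← Finset.mul_sum, hy.colF c]

theorem sum_kk : ∑ a ∈ F, kk Z a = ∑ c ∈ F, Z c c * (Z ^ 2) c c := by
  unfold kk
  rw [Finset.sum_comm, Finset.sum_subset (Finset.subset_univ F) fun x _ hx => by
    rw [hy.Zcc_off hx, zero_mul]]
  exact Finset.sum_congr rfl fun c _ => by rw [← Finset.mul_sum, hy.colF c]

/-- the Frobenius norm of `K'` -/
theorem frob_Ka : ∑ p ∈ F ×ˢ F, Ka Z p.1 p.2 ^ 2 ≤ (s * w) ^ 2 := by
  have h1 : ∀ a b, Ka Z a b ^ 2 ≤ s ^ 2 * ∑ c ∈ F, Z a c ^ 2 * Z b c ^ 2 := by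
    intro a b
    have e1 : Ka Z a b = ∑ c ∈ F, |Z c c| * (|Z a c| * |Z b c|) := by
      unfold Ka
      exact (Finset.sum_subset (Finset.subset_univ F) fun x _ hx => by
        rw [hy.Zcc_off hx, abs_zero, zero_mul]).symm
    rw [e1]
    have h2 := Finset.sum_mul_sq_le_sq_mul_sq F (fun c => |Z c c|) (fun c => |Z a c| * |Z b c|)
    refine h2.trans ?_
    simp only [mul_pow, sq_abs]
    exact mul_le_mul_of_nonneg_right hy.S (Finset.sum_nonneg fun c _ => by positivity)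
  calc ∑ p ∈ F ×ˢ F, Ka Z p.1 p.2 ^ 2 ≤
      ∑ p ∈ F ×ˢ F, s ^ 2 * ∑ c ∈ F, Z p.1 c ^ 2 * Z p.2 c ^ 2 :=
        Finset.sum_le_sum fun p _ => h1 p.1 p.2
    _ = s ^ 2 * ∑ c ∈ F, (Z ^ 2) c c ^ 2 := by
        rw [← Finset.mul_sum, Finset.sum_comm]
        congr 1
        refine Finset.sum_congr rfl fun c _ => ?_
        rw [sum_pairs_mul F (fun a => Z a c ^ 2) (fun a => Z a c ^ 2), hy.colF c]
        ring
    _ ≤ s ^ 2 * w ^ 2 := mul_le_mul_of_nonneg_left hy.W (sq_nonneg _)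
    _ = (s * w) ^ 2 := by ring

/-- the sum of `K` over all pairs -/
theorem sum_KK : ∑ p ∈ F ×ˢ F, KK Z p.1 p.2 = Z.trace := by
  unfold KK
  rw [Finset.sum_comm]
  simp only [Matrix.trace, Matrix.diag]
  refine Finset.sum_congr rfl fun c _ => ?_
  rw [← Finset.mul_sum, sum_pairs_mul F (fun a => Z a c) (fun a => Z a c)]
  by_cases hc : c ∈ F
  · rw [hy.base.colsum_sq c hc]; ring
  · rw [hy.Zcc_off hc]; ring

/-- `q4_a ≤ z² w_a` -/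
theorem q4_le (a : ι) : q4 Z a ≤ z ^ 2 * (Z ^ 2) a a := by
  unfold q4
  rw [sq_diag_eq hy.base.symm, Finset.mul_sum]
  refine Finset.sum_le_sum fun c _ => ?_
  have h1 : Z a c ^ 2 ≤ z ^ 2 := by
    rw [← sq_abs]; exact pow_le_pow_left₀ (abs_nonneg _) (hy.Zb a c) 2
  calc Z a c ^ 4 = Z a c ^ 2 * Z a c ^ 2 := by ring
    _ ≤ z ^ 2 * Z a c ^ 2 := mul_le_mul_of_nonneg_right h1 (sq_nonneg _)

theorem sum_q4 : ∑ a ∈ F, q4 Z a = Q4 F Z := by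
  unfold q4 Q4
  refine Finset.sum_congr rfl fun a _ => ?_
  exact (Finset.sum_subset (Finset.subset_univ F) fun x _ hx => by
    rw [hy.base.supp' a x hx]; norm_num).symm

theorem sum_q4_sq : ∑ a ∈ F, q4 Z a ^ 2 ≤ (z ^ 2 * w) ^ 2 := by
  calc ∑ a ∈ F, q4 Z a ^ 2 ≤ ∑ a ∈ F, (z ^ 2) ^ 2 * (Z ^ 2) a a ^ 2 := by
        refine Finset.sum_le_sum fun a _ => ?_
        rw [← mul_pow]
        exact pow_le_pow_left₀ (q4_nonneg Z a) (hy.q4_le a) 2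
    _ = (z ^ 2) ^ 2 * ∑ a ∈ F, (Z ^ 2) a a ^ 2 := by rw [Finset.mul_sum]
    _ ≤ (z ^ 2) ^ 2 * w ^ 2 := mul_le_mul_of_nonneg_left hy.W (sq_nonneg _)
    _ = (z ^ 2 * w) ^ 2 := by ring

/-- rows of `Z` -/
theorem rowZ : ∀ a ∈ F, ∑ b ∈ F, Z a b ^ 2 ≤ r ^ 2 := fun a ha => by
  rw [hy.rowF a]; exact hy.R a ha

theorem colZ : ∀ b ∈ F, ∑ a ∈ F, Z a b ^ 2 ≤ r ^ 2 := fun b hb => by
  rw [hy.colF b]; exact hy.R b hb

theorem abs_Zaa {a : ι} (ha : a ∈ F) : |Z a a| ≤ s := Q.abs_diag_le_of hy.S hy.s0 ha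

/-- rows of `Z_aa Z_bb` -/
theorem rowP : ∀ a ∈ F, ∑ b ∈ F, (Z a a * Z b b) ^ 2 ≤ (s ^ 2) ^ 2 := fun a ha => by
  simp only [mul_pow, ← Finset.mul_sum]
  have h1 : Z a a ^ 2 ≤ s ^ 2 := by
    rw [← sq_abs]; exact pow_le_pow_left₀ (abs_nonneg _) (hy.abs_Zaa ha) 2
  calc Z a a ^ 2 * ∑ b ∈ F, Z b b ^ 2 ≤ s ^ 2 * s ^ 2 :=
        mul_le_mul h1 hy.S (Finset.sum_nonneg fun _ _ => sq_nonneg _) (sq_nonneg _)
    _ = (s ^ 2) ^ 2 := by ring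

theorem colP : ∀ b ∈ F, ∑ a ∈ F, (Z a a * Z b b) ^ 2 ≤ (s ^ 2) ^ 2 := fun b hb => by
  have := hy.rowP b hb
  refine le_trans (le_of_eq (Finset.sum_congr rfl fun a _ => ?_)) this
  rw [mul_comm]

/-- the weight `e_ab` against a product array, row form -/
theorem rowEA (f k : ι → ℝ) {f1 K : ℝ} (hK : 0 ≤ K) (hf : ∑ a ∈ F, |f a| ≤ f1)
    (hk : ∑ b ∈ F, k b ^ 2 ≤ K ^ 2) :
    ∑ p ∈ A, eA Z p.1 p.2 * (|f p.1| * |k p.2|) ≤ (r + s ^ 2) * (f1 * K) := by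
  have h1 := rowN hy.sub (fun a b => Z a b) f k hy.r0 hK hy.rowZ hf hk
  have h2 := rowN hy.sub (fun a b => Z a a * Z b b) f k (sq_nonneg s) hK hy.rowP hf hk
  have h3 : ∑ p ∈ A, eA Z p.1 p.2 * (|f p.1| * |k p.2|) =
      ∑ p ∈ A, |Z p.1 p.2| * (|f p.1| * |k p.2|) +
      ∑ p ∈ A, |Z p.1 p.1 * Z p.2 p.2| * (|f p.1| * |k p.2|) := by
    rw [← Finset.sum_add_distrib]
    exact Finset.sum_congr rfl fun p _ => by unfold eA; ring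
  rw [h3, add_mul]
  exact add_le_add h1 h2

theorem colEA (f k : ι → ℝ) {f1 K : ℝ} (hK : 0 ≤ K) (hf : ∑ a ∈ F, |f a| ≤ f1)
    (hk : ∑ b ∈ F, k b ^ 2 ≤ K ^ 2) :
    ∑ p ∈ A, eA Z p.1 p.2 * (|k p.1| * |f p.2|) ≤ (r + s ^ 2) * (f1 * K) := by
  have h1 := colN hy.sub (fun a b => Z a b) f k hy.r0 hK hy.colZ hf hk
  have h2 := colN hy.sub (fun a b => Z a a * Z b b) f k (sq_nonneg s) hK hy.colP hf hk
  have h3 : ∑ p ∈ A, eA Z p.1 p.2 * (|k p.1| * |f p.2|) =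
      ∑ p ∈ A, |Z p.1 p.2| * (|k p.1| * |f p.2|) +
      ∑ p ∈ A, |Z p.1 p.1 * Z p.2 p.2| * (|k p.1| * |f p.2|) := by
    rw [← Finset.sum_add_distrib]
    exact Finset.sum_congr rfl fun p _ => by unfold eA; ring
  rw [h3, add_mul]
  exact add_le_add h1 h2

theorem frobZ : ∑ p ∈ F ×ˢ F, Z p.1 p.2 ^ 2 ≤ t ^ 2 := by
  rw [Finset.sum_product]
  refine le_trans (le_of_eq ?_) hy.T
  rw [Finset.sum_congr rfl fun a _ => hy.rowF a]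
  exact hy.base.trace_F 1

/-- the weight `e_ab` against `K'` -/
theorem sum_eA_Ka : ∑ p ∈ A, eA Z p.1 p.2 * Ka Z p.1 p.2 ≤ (t + s ^ 2) * (s * w) := by
  have hsw : 0 ≤ s * w := mul_nonneg hy.s0 hy.w0
  have h1 : ∑ p ∈ A, |Z p.1 p.2| * |Ka Z p.1 p.2| ≤ t * (s * w) :=
    sumA_arr_le hy.sub (fun p => Z p.1 p.2) (fun p => Ka Z p.1 p.2) hy.t0 hsw hy.frobZ hy.frob_Ka
  have h2 : ∑ p ∈ A, |Z p.1 p.1 * Z p.2 p.2| * |Ka Z p.1 p.2| ≤ s ^ 2 * (s * w) := by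
    refine sumA_arr_le hy.sub (fun p => Z p.1 p.1 * Z p.2 p.2) (fun p => Ka Z p.1 p.2)
      (sq_nonneg s) hsw ?_ hy.frob_Ka
    have := arr_mul F (fun a => Z a a) (fun a => Z a a) hy.S hy.S
    refine this.trans (le_of_eq (by ring))
  have h3 : ∑ p ∈ A, eA Z p.1 p.2 * Ka Z p.1 p.2 =
      ∑ p ∈ A, |Z p.1 p.2| * |Ka Z p.1 p.2| +
      ∑ p ∈ A, |Z p.1 p.1 * Z p.2 p.2| * |Ka Z p.1 p.2| := by
    rw [← Finset.sum_add_distrib]
    exact Finset.sum_congr rfl fun p _ => by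
      unfold eA; rw [abs_of_nonneg (Ka_nonneg Z p.1 p.2)]; ring
  rw [h3, add_mul]
  exact add_le_add h1 h2

theorem sumS : ∑ a ∈ F, |Z a a ^ 2| ≤ s ^ 2 := by
  refine le_trans (le_of_eq (Finset.sum_congr rfl fun a _ => abs_of_nonneg (sq_nonneg _))) hy.S

theorem one_sq : ∑ _b ∈ F, (1 : ℝ) ^ 2 ≤ ν ^ 2 := by
  simp only [one_pow, Finset.sum_const, nsmul_eq_mul, mul_one]
  exact hy.N.le

/-! ### The pieces -/

/-- the removal term -/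
theorem piece_rem : ∑ p ∈ A, -(Z p.1 p.1 ^ 2 + Z p.2 p.2 ^ 2) ≤
    -2 * ν ^ 2 * Sd F Z + 2 * g ^ 2 * s ^ 2 := by
  rw [Finset.sum_neg_distrib, sumA_eq_full_sub hy.sub (fun p => Z p.1 p.1 ^ 2 + Z p.2 p.2 ^ 2),
    Finset.sum_add_distrib, Finset.sum_add_distrib, Finset.sum_product, Finset.sum_product]
  simp only [Finset.sum_const, nsmul_eq_mul, ← Finset.mul_sum]
  rw [hy.N]
  have e4 := sumE_fst_le (Finset.sdiff_subset) hy.rows (f := fun a => Z a a ^ 2)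
    fun a => sq_nonneg _
  have e5 := sumE_snd_le (Finset.sdiff_subset) hy.cols (f := fun a => Z a a ^ 2)
    fun a => sq_nonneg _
  have e6 := mul_le_mul_of_nonneg_left hy.S (sq_nonneg g)
  have e7 : Sd F Z = ∑ a ∈ F, Z a a ^ 2 := rfl
  rw [e7]
  linarith

/-- the tilt of the removal term -/
theorem piece_rem_h : ∑ p ∈ A, h p.1 p.2 * (Z p.1 p.1 ^ 2 + Z p.2 p.2 ^ 2) ≤
    2 * (H * (s ^ 2 * ν)) := by
  have h1 := rowN hy.sub h (fun a => Z a a ^ 2) (fun _ => 1) hy.H0 hy.n0 hy.hrow hy.sumS hy.one_sq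
  have h2 := colN hy.sub h (fun a => Z a a ^ 2) (fun _ => 1) hy.H0 hy.n0 hy.hcol hy.sumS hy.one_sq
  have h3 : ∑ p ∈ A, h p.1 p.2 * (Z p.1 p.1 ^ 2 + Z p.2 p.2 ^ 2) ≤
      ∑ p ∈ A, |h p.1 p.2| * (|Z p.1 p.1 ^ 2| * |(1 : ℝ)|) +
      ∑ p ∈ A, |h p.1 p.2| * (|(1 : ℝ)| * |Z p.2 p.2 ^ 2|) := by
    rw [← Finset.sum_add_distrib]
    refine Finset.sum_le_sum fun p _ => ?_
    rw [abs_of_nonneg (sq_nonneg (Z p.1 p.1)), abs_of_nonneg (sq_nonneg (Z p.2 p.2)), abs_one]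
    have := le_abs_self (h p.1 p.2)
    nlinarith [mul_le_mul_of_nonneg_right this (add_nonneg (sq_nonneg (Z p.1 p.1))
      (sq_nonneg (Z p.2 p.2)))]
  linarith

/-- the error of the removal term -/
theorem piece_rem_e : ∑ p ∈ A, eA Z p.1 p.2 * (Z p.1 p.1 ^ 2 + Z p.2 p.2 ^ 2) ≤
    2 * ((r + s ^ 2) * (s ^ 2 * ν)) := by
  have h1 := hy.rowEA (fun a => Z a a ^ 2) (fun _ => 1) hy.n0 hy.sumS hy.one_sq
  have h2 := hy.colEA (fun a => Z a a ^ 2) (fun _ => 1) hy.n0 hy.sumS hy.one_sq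
  have h3 : ∑ p ∈ A, eA Z p.1 p.2 * (Z p.1 p.1 ^ 2 + Z p.2 p.2 ^ 2) =
      ∑ p ∈ A, eA Z p.1 p.2 * (|Z p.1 p.1 ^ 2| * |(1 : ℝ)|) +
      ∑ p ∈ A, eA Z p.1 p.2 * (|(1 : ℝ)| * |Z p.2 p.2 ^ 2|) := by
    rw [← Finset.sum_add_distrib]
    refine Finset.sum_congr rfl fun p _ => ?_
    rw [abs_of_nonneg (sq_nonneg (Z p.1 p.1)), abs_of_nonneg (sq_nonneg (Z p.2 p.2)), abs_one]
    ring
  linarith

/-- the main first-order term `4 K_ab` -/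
theorem piece_K : ∑ p ∈ A, KK Z p.1 p.2 ≤ Z.trace + e * (s * w) := by
  rw [sumA_eq_full_sub hy.sub (fun p => KK Z p.1 p.2), hy.sum_KK]
  have h1 : ∑ p ∈ (F ×ˢ F) \ A, |Ka Z p.1 p.2| ≤ e * (s * w) :=
    sumE_abs_le Finset.sdiff_subset hy.e0 (mul_nonneg hy.s0 hy.w0) hy.card
      (fun p => Ka Z p.1 p.2) hy.frob_Ka
  have h2 : -∑ p ∈ (F ×ˢ F) \ A, KK Z p.1 p.2 ≤ ∑ p ∈ (F ×ˢ F) \ A, |Ka Z p.1 p.2| := by
    rw [← Finset.sum_neg_distrib]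
    refine Finset.sum_le_sum fun p _ => ?_
    exact ((neg_le_abs _).trans (abs_KK_le Z p.1 p.2)).trans (le_abs_self _)
  linarith

/-- the main first-order term `Z_bb κ_a + Z_aa κ_b` -/
theorem piece_k : ∑ p ∈ A, (Z p.2 p.2 * kk Z p.1 + Z p.1 p.1 * kk Z p.2) ≤
    2 * (Z.trace * ∑ c ∈ F, Z c c * (Z ^ 2) c c) + 2 * (g * (s * w * s)) := by
  rw [sumA_eq_full_sub hy.sub (fun p => Z p.2 p.2 * kk Z p.1 + Z p.1 p.1 * kk Z p.2)]
  have hT : ∑ a ∈ F, Z a a = Z.trace := by simpa using hy.base.trace_F 0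
  have h1 : ∑ p ∈ F ×ˢ F, (Z p.2 p.2 * kk Z p.1 + Z p.1 p.1 * kk Z p.2) =
      2 * (Z.trace * ∑ c ∈ F, Z c c * (Z ^ 2) c c) := by
    have a1 : ∑ p ∈ F ×ˢ F, (Z p.2 p.2 * kk Z p.1 + Z p.1 p.1 * kk Z p.2) =
        ∑ p ∈ F ×ˢ F, kk Z p.1 * Z p.2 p.2 + ∑ p ∈ F ×ˢ F, Z p.1 p.1 * kk Z p.2 := by
      rw [← Finset.sum_add_distrib]
      exact Finset.sum_congr rfl fun p _ => by ring
    rw [a1, sum_pairs_mul F (fun a => kk Z a) (fun a => Z a a),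
      sum_pairs_mul F (fun a => Z a a) (fun a => kk Z a), hT, hy.sum_kk]
    ring
  have hka : ∑ a ∈ F, |ka Z a| ≤ s * w :=
    le_trans (le_of_eq (Finset.sum_congr rfl fun a _ => abs_of_nonneg (ka_nonneg Z a))) hy.sum_ka
  have h2 := rowE (E := (F ×ˢ F) \ A) Finset.sdiff_subset (fun a => ka Z a) (fun a => Z a a)
    hy.g0 hy.s0 hy.rows hka hy.S
  have h3 := colE (E := (F ×ˢ F) \ A) Finset.sdiff_subset (fun a => ka Z a) (fun a => Z a a)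
    hy.g0 hy.s0 hy.cols hka hy.S
  have h4 : -∑ p ∈ (F ×ˢ F) \ A, (Z p.2 p.2 * kk Z p.1 + Z p.1 p.1 * kk Z p.2) ≤
      ∑ p ∈ (F ×ˢ F) \ A, |ka Z p.1| * |Z p.2 p.2| +
      ∑ p ∈ (F ×ˢ F) \ A, |Z p.1 p.1| * |ka Z p.2| := by
    rw [← Finset.sum_neg_distrib, ← Finset.sum_add_distrib]
    refine Finset.sum_le_sum fun p _ => ?_
    have b1 : -(Z p.2 p.2 * kk Z p.1) ≤ |ka Z p.1| * |Z p.2 p.2| := by
      refine (neg_le_abs _).trans ?_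
      rw [abs_mul, mul_comm]
      exact mul_le_mul_of_nonneg_right ((abs_kk_le Z p.1).trans (le_abs_self _)) (abs_nonneg _)
    have b2 : -(Z p.1 p.1 * kk Z p.2) ≤ |Z p.1 p.1| * |ka Z p.2| := by
      refine (neg_le_abs _).trans ?_
      rw [abs_mul]
      exact mul_le_mul_of_nonneg_left ((abs_kk_le Z p.2).trans (le_abs_self _)) (abs_nonneg _)
    linarith
  linarith

/-- the tilt of `Z_bb κ_a + Z_aa κ_b` -/
theorem piece_k_h : -∑ p ∈ A, h p.1 p.2 * (Z p.2 p.2 * kk Z p.1 + Z p.1 p.1 * kk Z p.2) ≤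
    2 * (H * (s * w * s)) := by
  have hka : ∑ a ∈ F, |ka Z a| ≤ s * w :=
    le_trans (le_of_eq (Finset.sum_congr rfl fun a _ => abs_of_nonneg (ka_nonneg Z a))) hy.sum_ka
  have h1 := rowN hy.sub h (fun a => ka Z a) (fun a => Z a a) hy.H0 hy.s0 hy.hrow hka hy.S
  have h2 := colN hy.sub h (fun a => ka Z a) (fun a => Z a a) hy.H0 hy.s0 hy.hcol hka hy.S
  have h4 : -∑ p ∈ A, h p.1 p.2 * (Z p.2 p.2 * kk Z p.1 + Z p.1 p.1 * kk Z p.2) ≤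
      ∑ p ∈ A, |h p.1 p.2| * (|ka Z p.1| * |Z p.2 p.2|) +
      ∑ p ∈ A, |h p.1 p.2| * (|Z p.1 p.1| * |ka Z p.2|) := by
    rw [← Finset.sum_neg_distrib, ← Finset.sum_add_distrib]
    refine Finset.sum_le_sum fun p _ => ?_
    rw [← mul_add]
    refine (neg_le_abs _).trans ?_
    rw [abs_mul]
    refine mul_le_mul_of_nonneg_left ?_ (abs_nonneg _)
    refine (abs_add_le _ _).trans (add_le_add ?_ ?_)
    · rw [abs_mul, mul_comm]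
      exact mul_le_mul_of_nonneg_right ((abs_kk_le Z p.1).trans (le_abs_self _)) (abs_nonneg _)
    · rw [abs_mul]
      exact mul_le_mul_of_nonneg_left ((abs_kk_le Z p.2).trans (le_abs_self _)) (abs_nonneg _)
  linarith

/-- the remainder -/
theorem piece_R : ∑ p ∈ A, ∑ c, RR Z p.1 p.2 c ≤
    5 / 2 * (Q4 F Z * Sd F Z) + 16 * ((r + s ^ 2) * (s * w * s)) +
      8 * ((t + s ^ 2) * (s * w)) + 28 * ((r + s ^ 2) * (s ^ 2 * (z ^ 2 * w))) + 66 * w ^ 2 := by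
  have hsum : ∀ a b, ∑ c, RR Z a b c =
      8 * (eA Z a b * (|ka Z a| * |Z b b|)) + 8 * (eA Z a b * (|Z a a| * |ka Z b|)) +
      8 * (eA Z a b * Ka Z a b) +
      5 / 4 * (q4 Z a * Z b b ^ 2) + 5 / 4 * (Z a a ^ 2 * q4 Z b) +
      14 * (eA Z a b * (|q4 Z a| * |Z b b ^ 2|)) + 14 * (eA Z a b * (|Z a a ^ 2| * |q4 Z b|)) +
      66 * ∑ c, Z a c ^ 2 * Z b c ^ 2 := by
    intro a b
    rw [abs_of_nonneg (ka_nonneg Z a), abs_of_nonneg (ka_nonneg Z b),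
      abs_of_nonneg (q4_nonneg Z a), abs_of_nonneg (q4_nonneg Z b),
      abs_of_nonneg (sq_nonneg (Z a a)), abs_of_nonneg (sq_nonneg (Z b b))]
    unfold ka Ka q4
    simp only [Finset.mul_sum, Finset.sum_mul, ← Finset.sum_add_distrib]
    exact Finset.sum_congr rfl fun c _ => by unfold RR; ring
  simp only [hsum, Finset.sum_add_distrib, ← Finset.mul_sum]
  have hka : ∑ a ∈ F, |ka Z a| ≤ s * w :=
    le_trans (le_of_eq (Finset.sum_congr rfl fun a _ => abs_of_nonneg (ka_nonneg Z a))) hy.sum_ka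
  have c1 := hy.rowEA (fun a => ka Z a) (fun a => Z a a) hy.s0 hka hy.S
  have c2 := hy.colEA (fun a => ka Z a) (fun a => Z a a) hy.s0 hka hy.S
  have c3 := hy.sum_eA_Ka
  have c4 : ∑ p ∈ A, q4 Z p.1 * Z p.2 p.2 ^ 2 ≤ Q4 F Z * Sd F Z :=
    sumA_mul_le hy.sub (f := fun a => q4 Z a) (g := fun a => Z a a ^ 2) (q4_nonneg Z)
      (fun a => sq_nonneg _) hy.sum_q4.le le_rfl
  have c5 : ∑ p ∈ A, Z p.1 p.1 ^ 2 * q4 Z p.2 ≤ Sd F Z * Q4 F Z :=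
    sumA_mul_le hy.sub (f := fun a => Z a a ^ 2) (g := fun a => q4 Z a)
      (fun a => sq_nonneg _) (q4_nonneg Z) le_rfl hy.sum_q4.le
  have hzw : 0 ≤ z ^ 2 * w := mul_nonneg (sq_nonneg _) hy.w0
  have c6 := hy.colEA (fun a => Z a a ^ 2) (fun a => q4 Z a) hzw hy.sumS hy.sum_q4_sq
  have c7 := hy.rowEA (fun a => Z a a ^ 2) (fun a => q4 Z a) hzw hy.sumS hy.sum_q4_sq
  have c8 : ∑ p ∈ A, ∑ c, Z p.1 c ^ 2 * Z p.2 c ^ 2 ≤ w ^ 2 := by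
    calc ∑ p ∈ A, ∑ c, Z p.1 c ^ 2 * Z p.2 c ^ 2 ≤
        ∑ p ∈ F ×ˢ F, ∑ c, Z p.1 c ^ 2 * Z p.2 c ^ 2 :=
          Finset.sum_le_sum_of_subset_of_nonneg hy.sub fun p _ _ =>
            Finset.sum_nonneg fun c _ => by positivity
      _ = ∑ c, (Z ^ 2) c c ^ 2 := by
          rw [Finset.sum_comm]
          refine Finset.sum_congr rfl fun c _ => ?_
          rw [sum_pairs_mul F (fun a => Z a c ^ 2) (fun a => Z a c ^ 2), hy.colF c]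
          ring
      _ = ∑ c ∈ F, (Z ^ 2) c c ^ 2 :=
          (Finset.sum_subset (Finset.subset_univ F) fun x _ hx => by
            rw [hy.wc_off hx]; norm_num).symm
      _ ≤ w ^ 2 := hy.W
  linarith [show Sd F Z * Q4 F Z = Q4 F Z * Sd F Z by ring]

/-- the sum of the remainders is nonnegative termwise -/
theorem rr0 (p : ι × ι) : 0 ≤ ∑ c, RR Z p.1 p.2 c :=
  Finset.sum_nonneg fun c _ => RR_nonneg Z p.1 p.2 c

end Hyp

/-- the error of the drift of `S₁` -/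
noncomputable def errS1 (t s w r z e g H ν : ℝ) : ℝ :=
  2 * g ^ 2 * s ^ 2 + 2 * H * s ^ 2 * ν + 21 * (r + s ^ 2) * s ^ 2 * ν + 4 * e * s * w +
    4 * (g + H) * s ^ 2 * w + 24 * (r + s ^ 2) * s ^ 2 * w + 12 * (t + s ^ 2) * s * w +
    42 * (r + s ^ 2) * s ^ 2 * z ^ 2 * w + 99 * w ^ 2

/-- **The drift of `S₁`** (g-form). -/
theorem S1_mean (hy : Hyp F Z A h t s w r z e g H ν) :
    ∑ p ∈ A, (1 - h p.1 p.2) * (Sd ((F.erase p.1).erase p.2) (upd Z p.1 p.2) - Sd F Z) ≤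
      -2 * ν ^ 2 * Sd F Z + 15 / 4 * (Q4 F Z * Sd F Z) + 4 * Z.trace +
        4 * (Z.trace * ∑ c ∈ F, Z c c * (Z ^ 2) c c) - 4 * ∑ p ∈ A, h p.1 p.2 * KK Z p.1 p.2 +
        errS1 t s w r z e g H ν := by
  have hSF : ∑ c, Z c c ^ 2 = Sd F Z := by
    unfold Sd
    exact (Finset.sum_subset (Finset.subset_univ F) fun x _ hx => by
      rw [hy.Zcc_off hx]; norm_num).symm
  have hSU : ∀ p : ι × ι, Sd ((F.erase p.1).erase p.2) (upd Z p.1 p.2) =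
      ∑ c, upd Z p.1 p.2 c c ^ 2 := by
    intro p
    unfold Sd
    refine Finset.sum_subset (Finset.subset_univ _) fun x _ hx => ?_
    have : upd Z p.1 p.2 x x = 0 := by
      simp only [upd, Matrix.of_apply]
      by_cases h1 : x = p.1
      · rw [if_pos (Or.inl h1)]
      · by_cases h2 : x = p.2
        · rw [if_pos (Or.inr (Or.inl h2))]
        · have h3 : x ∉ F := by
            intro h3
            exact hx (Finset.mem_erase.2 ⟨h2, Finset.mem_erase.2 ⟨h1, h3⟩⟩)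
          rw [if_neg (by tauto), hy.base.supp x x h3, hy.base.supp x p.1 h3,
            hy.base.supp x p.2 h3]
          ring
    rw [this]; norm_num
  have hpt : ∀ p ∈ A, (1 - h p.1 p.2) *
      (Sd ((F.erase p.1).erase p.2) (upd Z p.1 p.2) - Sd F Z) ≤
      -(Z p.1 p.1 ^ 2 + Z p.2 p.2 ^ 2) + h p.1 p.2 * (Z p.1 p.1 ^ 2 + Z p.2 p.2 ^ 2) +
      21 / 2 * (eA Z p.1 p.2 * (Z p.1 p.1 ^ 2 + Z p.2 p.2 ^ 2)) +
      2 * (Z p.2 p.2 * kk Z p.1 + Z p.1 p.1 * kk Z p.2) -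
      2 * (h p.1 p.2 * (Z p.2 p.2 * kk Z p.1 + Z p.1 p.1 * kk Z p.2)) +
      4 * KK Z p.1 p.2 - 4 * (h p.1 p.2 * KK Z p.1 p.2) + 3 / 2 * ∑ c, RR Z p.1 p.2 c := by
    intro p hp
    have h1 := S1_ptg (hy.ok p hp).1 hy.base.symm (hy.ok p hp).2
    rw [hSU, ← hSF]
    have hk1 : ∑ c, Z c c * Z p.1 c ^ 2 = kk Z p.1 := rfl
    have hk2 : ∑ c, Z c c * Z p.2 c ^ 2 = kk Z p.2 := rfl
    have hk3 : ∑ c, Z c c * (Z p.1 c * Z p.2 c) = KK Z p.1 p.2 := rfl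
    rw [hk1, hk2, hk3] at h1
    have hom := abs_le.1 (hy.hh p hp)
    have hom0 : 0 ≤ 1 - h p.1 p.2 := by linarith [hom.2]
    have hom1 : 1 - h p.1 p.2 ≤ 3 / 2 := by linarith [hom.1]
    have h2 := mul_le_mul_of_nonneg_left h1 hom0
    have he0 : 0 ≤ 7 * (eA Z p.1 p.2 * (Z p.1 p.1 ^ 2 + Z p.2 p.2 ^ 2)) := by
      have := eA_nonneg Z p.1 p.2
      positivity
    have h3 := mul_le_mul_of_nonneg_right hom1 he0
    have h4 := mul_le_mul_of_nonneg_right hom1 (hy.rr0 p)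
    nlinarith [h2, h3, h4]
  have hs := Finset.sum_le_sum hpt
  simp only [Finset.sum_add_distrib, Finset.sum_sub_distrib, ← Finset.mul_sum] at hs
  have p1 := hy.piece_rem
  have p2 := hy.piece_rem_h
  have p3 := hy.piece_rem_e
  have p4 := hy.piece_K
  have p5 := hy.piece_k
  have p6 := hy.piece_k_h
  have p7 := hy.piece_R
  simp only [Finset.sum_add_distrib] at p1 p2 p3 p4 p5 p6 p7
  unfold errS1
  simp only [mul_add, Finset.sum_add_distrib] at hs p1 p2 p3 p4 p5 p6 p7 ⊢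
  nlinarith [hs, p1, p2, p3, p4, p5, p6, p7]

end Vale.Agent.P049.TS.S1
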