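import Vale.Agent.P049.TS.Final.S1

/-!
The increment of `S₁ = Σ Z_cc²` with a sharp second-order term (g-form, weights `1 - h`).
-/

set_option linter.unusedSectionVars false

namespace Vale.Agent.P049.TS.S1

open Matrix Finset

variable {ι : Type*} [Fintype ι] [DecidableEq ι]
variable {Z : Matrix ι ι ℝ}

/-- the real inequality for a surviving index, sharp second order -/
theorem sum_real {ai r p q x y z e : ℝ} (h0 : 0 ≤ ai) (h1 : ai ≤ 8 / 5) (he : 0 ≤ e)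
    (h2 : |ai - 1| ≤ 4 * e) (h3 : |ai * (1 - r) - 1| ≤ 2 * e) (h4 : |ai * (1 - r)| ≤ 9 / 5)
    (hpq : |p * q| ≤ 1 / 8) :
    (z + (ai * (q * x + (1 - r) * y) * x + ai * ((1 - r) * x + p * y) * y)) ^ 2 ≤
      z ^ 2 + (2 * (z * (q * x ^ 2 + p * y ^ 2)) + 4 * (z * (x * y))) +
        (8 * (e * (|z| * (|q| * x ^ 2 + |p| * y ^ 2))) + 8 * (e * (|z| * (|x| * |y|))) +
        5 / 4 * (q ^ 2 * x ^ 4 + p ^ 2 * y ^ 4) +
        14 * (e * (q ^ 2 * x ^ 4 + p ^ 2 * y ^ 4)) + 66 * (x * y) ^ 2) := by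
  set U := ai * (1 - r) with hU
  set P := q * x ^ 2 + p * y ^ 2 with hP
  have e1 : ai * (q * x + (1 - r) * y) * x + ai * ((1 - r) * x + p * y) * y =
      2 * (U * (x * y)) + ai * P := by rw [hU, hP]; ring
  rw [e1]
  -- second order
  have hU2 : U ^ 2 ≤ 81 / 25 := by
    have := abs_le.1 h4
    nlinarith [this.1, this.2]
  have hai2 : ai ^ 2 ≤ 1 + 52 / 5 * e := by
    have := abs_le.1 h2
    nlinarith [this.1, this.2]
  have hai3 : ai ^ 2 ≤ 64 / 25 := by nlinarith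
  have hQ : 0 ≤ q ^ 2 * x ^ 4 + p ^ 2 * y ^ 4 := by positivity
  have hP2 : P ^ 2 = (q ^ 2 * x ^ 4 + p ^ 2 * y ^ 4) + 2 * (p * q) * (x * y) ^ 2 := by
    rw [hP]; ring
  have hc : 2 * (p * q) * (x * y) ^ 2 ≤ 1 / 4 * (x * y) ^ 2 := by
    have := (abs_le.1 hpq).2
    nlinarith [sq_nonneg (x * y), mul_le_mul_of_nonneg_right this (sq_nonneg (x * y))]
  have s1 : (ai * P) ^ 2 ≤ (q ^ 2 * x ^ 4 + p ^ 2 * y ^ 4) +
      52 / 5 * (e * (q ^ 2 * x ^ 4 + p ^ 2 * y ^ 4)) + 16 / 25 * (x * y) ^ 2 := by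
    have f1 : ai ^ 2 * (q ^ 2 * x ^ 4 + p ^ 2 * y ^ 4) ≤
        (1 + 52 / 5 * e) * (q ^ 2 * x ^ 4 + p ^ 2 * y ^ 4) :=
      mul_le_mul_of_nonneg_right hai2 hQ
    have f2 : ai ^ 2 * (2 * (p * q) * (x * y) ^ 2) ≤ ai ^ 2 * (1 / 4 * (x * y) ^ 2) :=
      mul_le_mul_of_nonneg_left hc (sq_nonneg _)
    have f3 : ai ^ 2 * (1 / 4 * (x * y) ^ 2) ≤ 64 / 25 * (1 / 4 * (x * y) ^ 2) :=
      mul_le_mul_of_nonneg_right hai3 (by positivity)
    have f4 : (ai * P) ^ 2 = ai ^ 2 * (q ^ 2 * x ^ 4 + p ^ 2 * y ^ 4) +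
        ai ^ 2 * (2 * (p * q) * (x * y) ^ 2) := by rw [mul_pow, hP2]; ring
    linarith
  have s2 : (2 * (U * (x * y))) ^ 2 ≤ 324 / 25 * (x * y) ^ 2 := by
    have := mul_le_mul_of_nonneg_right hU2 (sq_nonneg (x * y))
    calc (2 * (U * (x * y))) ^ 2 = 4 * (U ^ 2 * (x * y) ^ 2) := by ring
      _ ≤ _ := by linarith
  have s3 : (2 * (U * (x * y)) + ai * P) ^ 2 ≤
      5 / 4 * (ai * P) ^ 2 + 5 * (2 * (U * (x * y))) ^ 2 := by
    nlinarith [sq_nonneg (ai * P - 4 * (2 * (U * (x * y))))]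
  have hq1 := sq_nonneg (x * y)
  have heQ : 0 ≤ e * (q ^ 2 * x ^ 4 + p ^ 2 * y ^ 4) := mul_nonneg he hQ
  have s4 : (2 * (U * (x * y)) + ai * P) ^ 2 ≤ 5 / 4 * (q ^ 2 * x ^ 4 + p ^ 2 * y ^ 4) +
      14 * (e * (q ^ 2 * x ^ 4 + p ^ 2 * y ^ 4)) + 66 * (x * y) ^ 2 := by linarith
  -- first order
  have g1 : 4 * ((U - 1) * (z * (x * y))) ≤ 8 * (e * (|z| * (|x| * |y|))) := by
    have : (U - 1) * (z * (x * y)) ≤ 2 * e * (|z| * (|x| * |y|)) := by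
      refine (le_abs_self _).trans ?_
      rw [abs_mul, abs_mul z, abs_mul x]
      exact mul_le_mul_of_nonneg_right h3 (by positivity)
    linarith
  have g2 : 2 * ((ai - 1) * (z * P)) ≤ 8 * (e * (|z| * (|q| * x ^ 2 + |p| * y ^ 2))) := by
    have : (ai - 1) * (z * P) ≤ 4 * e * (|z| * (|q| * x ^ 2 + |p| * y ^ 2)) := by
      refine (le_abs_self _).trans ?_
      rw [abs_mul, abs_mul z]
      refine mul_le_mul h2 (mul_le_mul_of_nonneg_left ?_ (abs_nonneg _)) (by positivity)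
        (by positivity)
      rw [hP]
      refine (abs_add_le _ _).trans ?_
      rw [abs_mul, abs_mul, abs_of_nonneg (sq_nonneg x), abs_of_nonneg (sq_nonneg y)]
    linarith
  have e2 : (z + (2 * (U * (x * y)) + ai * P)) ^ 2 = z ^ 2 + (2 * (z * P) + 4 * (z * (x * y))) +
      (4 * ((U - 1) * (z * (x * y))) + 2 * ((ai - 1) * (z * P))) +
      (2 * (U * (x * y)) + ai * P) ^ 2 := by ring
  rw [e2]
  linarith

/-- the remainder for one surviving index -/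
noncomputable def RR (Z : Matrix ι ι ℝ) (a b c : ι) : ℝ :=
  8 * (eA Z a b * (|Z c c| * (|Z b b| * Z a c ^ 2 + |Z a a| * Z b c ^ 2))) +
    8 * (eA Z a b * (|Z c c| * (|Z a c| * |Z b c|))) +
    5 / 4 * (Z b b ^ 2 * Z a c ^ 4 + Z a a ^ 2 * Z b c ^ 4) +
    14 * (eA Z a b * (Z b b ^ 2 * Z a c ^ 4 + Z a a ^ 2 * Z b c ^ 4)) +
    66 * (Z a c * Z b c) ^ 2

theorem eA_nonneg (Z : Matrix ι ι ℝ) (a b : ι) : 0 ≤ eA Z a b := by
  unfold eA; positivity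

theorem RR_nonneg (Z : Matrix ι ι ℝ) (a b c : ι) : 0 ≤ RR Z a b c := by
  have := eA_nonneg Z a b
  unfold RR; positivity

/-- pointwise bound for the increment of `Σ Z_cc²` -/
theorem S1_ptg {a b : ι} (hab : a ≠ b) (hZ : Z.IsSymm) (h : PairOK Z a b) :
    ∑ c, upd Z a b c c ^ 2 - ∑ c, Z c c ^ 2 ≤
      -(Z a a ^ 2 + Z b b ^ 2) + 7 * (eA Z a b * (Z a a ^ 2 + Z b b ^ 2)) +
        (2 * (Z b b * (∑ c, Z c c * Z a c ^ 2) + Z a a * (∑ c, Z c c * Z b c ^ 2)) +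
          4 * ∑ c, Z c c * (Z a c * Z b c)) + ∑ c, RR Z a b c := by
  have s1 : Z b a = Z a b := hZ.apply a b
  have k0 := inv_nonneg.2 h.al_pos.le
  rw [sum_diag_sq_upd hab hZ]
  have h1 : -(Z a a + dl Z a b a) ^ 2 ≤ -Z a a ^ 2 + 7 * (eA Z a b * Z a a ^ 2) := by
    have := S1_rem_real (p := Z a a) (q := Z b b) k0 h.inv_le h.1
    unfold dl ca cb eA
    rw [s1]
    exact this
  have h2 : -(Z b b + dl Z a b b) ^ 2 ≤ -Z b b ^ 2 + 7 * (eA Z a b * Z b b ^ 2) := by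
    have := S1_rem_real (p := Z b b) (q := Z a a) k0 h.inv_le h.1
    unfold dl ca cb eA
    rw [mul_comm (Z a a) (Z b b)]
    have e : (al Z a b)⁻¹ * (Z b b * Z a b + (1 - Z a b) * Z b b) * Z a b +
        (al Z a b)⁻¹ * ((1 - Z a b) * Z a b + Z b b * Z a a) * Z b b =
      (al Z a b)⁻¹ * (Z a a * Z b b + (1 - Z a b) * Z a b) * Z b b +
        (al Z a b)⁻¹ * ((1 - Z a b) * Z b b + Z b b * Z a b) * Z a b := by ring
    rw [e]
    exact this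
  have h3 : ∑ c, (Z c c + dl Z a b c) ^ 2 ≤
      ∑ c, (Z c c ^ 2 + ((2 * (Z b b * (Z c c * Z a c ^ 2) + Z a a * (Z c c * Z b c ^ 2)) +
        4 * (Z c c * (Z a c * Z b c))) + RR Z a b c)) := by
    refine Finset.sum_le_sum fun c _ => ?_
    have := sum_real (p := Z a a) (q := Z b b) (x := Z a c) (y := Z b c) (z := Z c c)
      (e := |Z a b| + |Z a a * Z b b|)
      k0 h.inv_le (by positivity) h.abs_inv_sub_one h.abs_off_sub_one h.abs_off_le h.2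
    unfold dl ca cb RR eA
    linarith
  rw [Finset.sum_add_distrib, Finset.sum_add_distrib, Finset.sum_add_distrib, ← Finset.mul_sum,
    ← Finset.mul_sum, Finset.sum_add_distrib, ← Finset.mul_sum, ← Finset.mul_sum] at h3
  linarith

end Vale.Agent.P049.TS.S1
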